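import Vale.Agent.P313.H974.Newton

/-!
Products of many matrices by divide and conquer with rounding, and the rounding of the result of a
stage to a stochastic matrix with a fixed denominator.
-/

namespace Vale.Agent.P313.H974

open Finset Matrix

set_option linter.unusedSectionVars false

variable {V : Type*} [Fintype V] [DecidableEq V]

/-- The product `F (m - 1) * ⋯ * F 0`. -/
def gprod (F : ℕ → Matrix V V ℝ) : ℕ → Matrix V V ℝ
  | 0 => 1
  | m + 1 => F m * gprod F m

/-- The product `F (2 ^ j * (i + 1) - 1) * ⋯ * F (2 ^ j * i)` by divide and conquer. -/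
def ptree (F : ℕ → Matrix V V ℝ) : ℕ → ℕ → Matrix V V ℝ
  | 0, i => F i
  | j + 1, i => ptree F j (2 * i + 1) * ptree F j (2 * i)

theorem ptree_gprod (F : ℕ → Matrix V V ℝ) : ∀ j i,
    ptree F j i * gprod F (2 ^ j * i) = gprod F (2 ^ j * (i + 1)) := by
  intro j
  induction j with
  | zero =>
    intro i
    simp only [pow_zero, one_mul]
    rfl
  | succ j ih =>
    intro i
    have h1 := ih (2 * i)
    have h2 := ih (2 * i + 1)
    have e1 : 2 ^ (j + 1) * i = 2 ^ j * (2 * i) := by ring
    have e2 : 2 ^ (j + 1) * (i + 1) = 2 ^ j * (2 * i + 1 + 1) := by ring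
    rw [e1, e2, ← h2, ← h1]
    simp only [ptree, mul_assoc]

theorem ptree_zero (F : ℕ → Matrix V V ℝ) (j : ℕ) : ptree F j 0 = gprod F (2 ^ j) := by
  have h := ptree_gprod F j 0
  rw [mul_zero, zero_add, mul_one] at h
  rw [← h]
  simp [gprod]

theorem gprod_pad (F : ℕ → Matrix V V ℝ) {r m : ℕ} (h : ∀ a, r ≤ a → F a = 1) (hm : r ≤ m) :
    gprod F m = gprod F r := by
  obtain ⟨d, rfl⟩ := Nat.exists_eq_add_of_le hm
  induction d with
  | zero => rfl
  | succ d ih =>
    rw [← add_assoc]
    show F (r + d) * gprod F (r + d) = _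
    rw [h (r + d) (by omega), one_mul, ih (by omega)]

theorem gprod_congr {F F' : ℕ → Matrix V V ℝ} {m : ℕ} (h : ∀ a < m, F a = F' a) :
    gprod F m = gprod F' m := by
  induction m with
  | zero => rfl
  | succ m ih =>
    show F m * gprod F m = F' m * gprod F' m
    rw [h m (by omega), ih (fun a ha => h a (by omega))]

/-- Absolute row sums at most `c`. -/
def RowLe (A : Matrix V V ℝ) (c : ℝ) : Prop := ∀ v, ∑ x, |A v x| ≤ c

theorem RowLe.mul {A D : Matrix V V ℝ} {c d : ℝ} (hA : RowLe A c) (hD : RowLe D d)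
    (hd : 0 ≤ d) : RowLe (A * D) (c * d) := fun v => row_mul_le hA hD hd v

theorem RowLe.add {A D : Matrix V V ℝ} {c d : ℝ} (hA : RowLe A c) (hD : RowLe D d) :
    RowLe (A + D) (c + d) := by
  intro v
  refine le_trans ?_ (add_le_add (hA v) (hD v))
  rw [← sum_add_distrib]
  exact sum_le_sum (fun x _ => by rw [Matrix.add_apply]; exact abs_add_le _ _)

theorem RowLe.mono {A : Matrix V V ℝ} {c d : ℝ} (hA : RowLe A c) (h : c ≤ d) : RowLe A d :=
  fun v => (hA v).trans h

theorem RowLe.of_entry {A : Matrix V V ℝ} {ε : ℝ} (hA : ∀ v x, |A v x| ≤ ε) :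
    RowLe A (Fintype.card V * ε) := by
  intro v
  calc ∑ x, |A v x| ≤ ∑ _x : V, ε := sum_le_sum (fun x _ => hA v x)
    _ = _ := by rw [sum_const, card_univ, nsmul_eq_mul]

theorem RowLe.entry {A : Matrix V V ℝ} {c : ℝ} (hA : RowLe A c) (v x : V) : |A v x| ≤ c :=
  (single_le_sum (f := fun x => |A v x|) (fun _ _ => abs_nonneg _) (mem_univ x)).trans (hA v)

theorem RowLe.one : RowLe (1 : Matrix V V ℝ) 1 := by
  intro v
  have : ∀ x, |(1 : Matrix V V ℝ) v x| = if v = x then 1 else 0 := by
    intro x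
    rw [one_apply]
    split_ifs <;> simp
  simp [this]

theorem ptree_row {F : ℕ → Matrix V V ℝ} {c : ℝ} (hc : 1 ≤ c) (hF : ∀ i, RowLe (F i) c) :
    ∀ j i, RowLe (ptree F j i) (c ^ 2 ^ j) := by
  intro j
  induction j with
  | zero => intro i; rw [pow_zero, pow_one]; exact hF i
  | succ j ih =>
    intro i
    have h := (ih (2 * i + 1)).mul (ih (2 * i)) (by positivity)
    have e : c ^ 2 ^ (j + 1) = c ^ 2 ^ j * c ^ 2 ^ j := by
      rw [← pow_add]
      congr 1
      rw [pow_succ]; ring
    rw [e]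
    exact h

/-- Errors of the divide and conquer product, if every product is rounded. -/
theorem ptree_err {F : ℕ → Matrix V V ℝ} {T : ℕ → ℕ → Matrix V V ℝ} {c η : ℝ} {J : ℕ}
    (hc : 1 ≤ c) (hη : 0 ≤ η) (hF : ∀ i, RowLe (F i) c)
    (h0 : ∀ i, ∀ v x, |T 0 i v x - F i v x| ≤ η)
    (hs : ∀ j < J, ∀ i, ∀ v x, |T (j + 1) i v x - (T j (2 * i + 1) * T j (2 * i)) v x| ≤ η)
    (hsmall : 4 ^ J * (Fintype.card V * η) ≤ 1) :
    ∀ j ≤ J, ∀ i, RowLe (T j i - ptree F j i) (4 ^ j * c ^ 2 ^ j * (Fintype.card V * η)) := by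
  set δ := Fintype.card V * η with hδ
  have hδ0 : 0 ≤ δ := by positivity
  intro j
  induction j with
  | zero =>
    intro _ i
    have h1 : RowLe (T 0 i - ptree F 0 i) δ := RowLe.of_entry (fun v x => by
      rw [Matrix.sub_apply]
      exact h0 i v x)
    refine h1.mono ?_
    rw [pow_zero, pow_zero, pow_one, one_mul]
    nlinarith
  | succ j ih =>
    intro hj i
    set X := c ^ 2 ^ j with hX
    set e := 4 ^ j * X * δ with he
    have hX1 : 1 ≤ X := one_le_pow₀ hc
    have h4 : (4 : ℝ) ^ j * δ ≤ 1 := by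
      refine le_trans ?_ hsmall
      exact mul_le_mul_of_nonneg_right (pow_le_pow_right₀ (by norm_num) (by omega)) hδ0
    have he0 : 0 ≤ e := by positivity
    have i1 := ih (by omega) (2 * i + 1)
    have i2 := ih (by omega) (2 * i)
    have p1 := ptree_row hc hF j (2 * i + 1)
    have p2 := ptree_row hc hF j (2 * i)
    have r1 : RowLe (T (j + 1) i - T j (2 * i + 1) * T j (2 * i)) δ :=
      RowLe.of_entry (fun v x => by
        rw [Matrix.sub_apply]
        exact hs j (by omega) i v x)
    have e1 : T (j + 1) i - ptree F (j + 1) i =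
        (T (j + 1) i - T j (2 * i + 1) * T j (2 * i)) +
        ((T j (2 * i + 1) - ptree F j (2 * i + 1)) * (T j (2 * i) - ptree F j (2 * i)) +
        ((T j (2 * i + 1) - ptree F j (2 * i + 1)) * ptree F j (2 * i) +
          ptree F j (2 * i + 1) * (T j (2 * i) - ptree F j (2 * i)))) := by
      simp only [ptree]
      noncomm_ring
    rw [e1]
    have h5 := r1.add ((i1.mul i2 he0).add ((i1.mul p2 (by positivity)).add
      (p1.mul i2 he0)))
    refine h5.mono ?_
    have e2 : c ^ 2 ^ (j + 1) = X * X := by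
      rw [hX, ← pow_add]
      congr 1
      rw [pow_succ]; ring
    rw [e2]
    have h6 : e * e ≤ 4 ^ j * (X * X) * δ := by
      have : e * e = (4 ^ j * (X * X) * δ) * (4 ^ j * δ) := by rw [he]; ring
      rw [this]
      have h7 : 0 ≤ 4 ^ j * (X * X) * δ := by positivity
      nlinarith
    have h7 : δ ≤ 4 ^ j * (X * X) * δ := by
      have h8 : (1 : ℝ) ≤ 4 ^ j := one_le_pow₀ (by norm_num)
      have h9 : 1 ≤ X * X := by nlinarith
      have h10 : 1 ≤ 4 ^ j * (X * X) := by nlinarith
      nlinarith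
    have h8 : e * X + X * e = 2 * (4 ^ j * (X * X) * δ) := by rw [he]; ring
    have h9 : (4 : ℝ) ^ (j + 1) * (X * X) * δ = 4 * (4 ^ j * (X * X) * δ) := by
      rw [pow_succ]; ring
    rw [h9]
    linarith

/-! ### Rounding to a stochastic matrix -/

/-- The rounded matrix: entries `a v x / D` off the column `bt`, the rest of the row goes to
`bt`. -/
noncomputable def rndMat (bt : V) (D : ℕ) (a : V → V → ℕ) : Matrix V V ℝ :=
  fun v x => if x = bt then 1 - ∑ y ∈ univ.erase bt, (a v y : ℝ) / D else (a v x : ℝ) / D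

/-- Rounding a stochastic matrix from below, the missing mass goes to `bt`. -/
theorem rndMat_close {X : Matrix V V ℝ} (hX : Sto X) (bt : V) {D : ℕ} {a : V → V → ℕ} {δ : ℝ}
    (hlow : ∀ v x, x ≠ bt → (a v x : ℝ) / D ≤ X v x)
    (hup : ∀ v x, x ≠ bt → X v x ≤ (a v x : ℝ) / D + δ) (hδ : 0 ≤ δ) :
    Sto (rndMat bt D a) ∧ RDg (rndMat bt D a) X (2 * (Fintype.card V * δ)) := by
  have hrow : ∀ v, ∑ x, rndMat bt D a v x = 1 := by
    intro v
    rw [← add_sum_erase _ _ (mem_univ bt)]
    have h1 : ∑ x ∈ univ.erase bt, rndMat bt D a v x = ∑ y ∈ univ.erase bt, (a v y : ℝ) / D := by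
      apply sum_congr rfl
      intro x hx
      unfold rndMat
      rw [if_neg (ne_of_mem_erase hx)]
    rw [h1]
    unfold rndMat
    rw [if_pos rfl]
    ring
  have hXrow : ∀ v, X v bt + ∑ y ∈ univ.erase bt, X v y = 1 := by
    intro v
    rw [add_sum_erase _ _ (mem_univ bt)]
    exact hX.row v
  refine ⟨⟨fun v x => ?_, hrow⟩, fun v => ?_⟩
  · unfold rndMat
    split_ifs with h
    · have h1 : ∑ y ∈ univ.erase bt, (a v y : ℝ) / D ≤ ∑ y ∈ univ.erase bt, X v y :=
        sum_le_sum (fun y hy => hlow v y (ne_of_mem_erase hy))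
      have h2 := hXrow v
      have h3 := hX.nn v bt
      linarith
    · positivity
  · have h1 : ∑ x ∈ univ.erase bt, |rndMat bt D a v x - X v x| ≤ Fintype.card V * δ := by
      calc ∑ x ∈ univ.erase bt, |rndMat bt D a v x - X v x| ≤ ∑ _x ∈ univ.erase bt, δ := by
            apply sum_le_sum
            intro x hx
            have hx' := ne_of_mem_erase hx
            unfold rndMat
            rw [if_neg hx', abs_le]
            have h1 := hlow v x hx'
            have h2 := hup v x hx'
            constructor <;> linarith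
        _ ≤ ∑ _x : V, δ := sum_le_sum_of_subset_of_nonneg (erase_subset _ _) (fun _ _ _ => hδ)
        _ = _ := by rw [sum_const, card_univ, nsmul_eq_mul]
    have h2 : |rndMat bt D a v bt - X v bt| ≤ ∑ x ∈ univ.erase bt, |rndMat bt D a v x - X v x| := by
      have h3 : rndMat bt D a v bt - X v bt =
          -∑ x ∈ univ.erase bt, (rndMat bt D a v x - X v x) := by
        rw [sum_sub_distrib]
        have h4 := hrow v
        rw [← add_sum_erase _ _ (mem_univ bt)] at h4
        have h5 := hXrow v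
        linarith
      rw [h3, abs_neg]
      exact abs_sum_le_sum_abs _ _
    rw [← add_sum_erase _ _ (mem_univ bt)]
    linarith

end Vale.Agent.P313.H974
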