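import Vale.Agent.P313.H974.Comp
import Mathlib.Analysis.Complex.ExponentialBounds

/-!
Composition of stages: error recursion, the potential of the weights, the value at the end, and
how a preconditioner that is good in a weighted `L²` norm gives the stopped law.
-/

namespace Vale.Agent.P313.H974

open Finset Matrix

set_option linter.unusedSectionVars false

variable {V : Type*} [Fintype V] [DecidableEq V]

theorem stopLaw_one (M : Matrix V V ℝ) : stopLaw M (fun _ => 1) = M := by
  unfold stopLaw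
  have h1 : diagonal (fun _ : V => (1 : ℝ) - 1) = 0 := by simp
  have h2 : diagonal (fun _ : V => (1 : ℝ)) = 1 := diagonal_one
  rw [h1, h2, mul_zero, sub_zero, inv_one, one_mul, mul_one]

/-- Error recursion over the stages. -/
theorem stages_err {M : Matrix V V ℝ} (hM : Sto M) {N : ℕ → Matrix V V ℝ} {β : ℕ → V → ℝ}
    {b δ : ℝ} {S : ℕ} (hb0 : 0 < b) (hb1 : b ≤ 1) (hN : ∀ s ≤ S, Sto (N s))
    (hβ : ∀ s x, b ≤ β s x) (hβ1 : ∀ s x, β s x ≤ 1) (hδ : 0 ≤ δ) (h0 : RDg (N 0) M δ)
    (hs : ∀ s < S, RDg (N (s + 1)) (stopLaw (N s) (β s)) δ) :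
    ∀ s ≤ S, RDg (N s) (stopLaw M (fun x => ∏ i ∈ range s, β i x))
      ((s + 1) * (1 / b) ^ s * δ) := by
  have hbi : 1 ≤ 1 / b := by rw [le_div_iff₀ hb0]; linarith
  intro s
  induction s with
  | zero =>
    intro _
    simp only [range_zero, prod_empty, stopLaw_one]
    simpa using h0
  | succ s ih =>
    intro hsS
    have h1 := hs s (by omega)
    have h2 := ih (by omega)
    have hlow : ∀ x, b ^ s ≤ ∏ i ∈ range s, β i x := by
      intro x
      calc b ^ s = ∏ _i ∈ range s, b := by rw [prod_const, card_range]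
        _ ≤ _ := prod_le_prod (fun _ _ => hb0.le) (fun i _ => hβ i x)
    have hup : ∀ x, ∏ i ∈ range s, β i x ≤ 1 := fun x =>
      prod_le_one (fun i _ => hb0.le.trans (hβ i x)) (fun i _ => hβ1 i x)
    have hX := hM.stopLaw (pow_pos hb0 s) hlow hup
    have h3 := stopLaw_lipschitz hX (hN s (by omega)) hb0 (hβ s) (hβ1 s) h2 (by positivity)
    have h4 := h1.trans h3
    rw [stopLaw_thin hM (pow_pos hb0 s) hb0 hlow hup (hβ s) (hβ1 s)] at h4
    have h5 : (fun x => (∏ i ∈ range s, β i x) * β s x) =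
        fun x => ∏ i ∈ range (s + 1), β i x := by
      funext x
      rw [prod_range_succ]
    rw [h5] at h4
    refine h4.mono ?_
    have h6 : (1 : ℝ) ≤ (1 / b) ^ (s + 1) := one_le_pow₀ hbi
    have h7 : 1 / b * ((s + 1) * (1 / b) ^ s * δ) = (s + 1) * (1 / b) ^ (s + 1) * δ := by ring
    rw [h7]
    push_cast
    nlinarith [mul_nonneg (sub_nonneg.2 h6) hδ]

/-- Hitting an absorbing state before being stopped. -/
theorem stopLaw_absorb {M : Matrix V V ℝ} (hM : Sto M) {α : V → ℝ} {a0 a : ℝ} (ha0 : 0 < a0)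
    (hα : ∀ x, a0 ≤ α x) (hα1 : ∀ x, α x ≤ 1) {R : V → Prop} (ha1 : a ≤ 1)
    (hR : ∀ x, R x → α x = a) (hcl : ∀ v x, R v → ¬ R x → M v x = 0) {acc : V}
    (hacc : M acc acc = 1) (T : ℕ) (v : V) (hv : R v) :
    (1 - a) ^ T * (M ^ T) v acc ≤ stopLaw M α v acc := by
  have hX := hM.stopLaw ha0 hα hα1
  have heq := stopLaw_eq hM ha0 hα hα1
  set X := stopLaw M α with hXdef
  have happ : ∀ v, X v acc = M v acc * α acc + ∑ x, M v x * (1 - α x) * X x acc := by
    intro v
    have := congrFun (congrFun heq v) acc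
    rw [Matrix.add_apply, mul_diagonal_apply', Matrix.mul_apply] at this
    simp only [mul_diagonal_apply'] at this
    exact this
  -- other entries of the row of `acc`
  have hz : ∀ x, x ≠ acc → M acc x = 0 := by
    intro x hx
    have h1 := hM.row acc
    rw [← add_sum_erase _ _ (mem_univ acc), hacc] at h1
    have h2 : ∑ x ∈ univ.erase acc, M acc x = 0 := by linarith
    rw [sum_eq_zero_iff_of_nonneg (fun y _ => hM.nn acc y)] at h2
    exact h2 x (mem_erase.2 ⟨hx, mem_univ x⟩)
  have hXacc : X acc acc = 1 := by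
    have h1 := happ acc
    rw [sum_eq_single acc (fun x _ hx => by rw [hz x hx]; ring)
      (fun h => absurd (mem_univ acc) h), hacc] at h1
    have h2 : α acc * (X acc acc - 1) = 0 := by linarith
    have h3 : α acc ≠ 0 := (lt_of_lt_of_le ha0 (hα acc)).ne'
    rcases mul_eq_zero.1 h2 with h | h
    · exact absurd h h3
    · linarith
  have hstep : ∀ v, R v → (1 - a) * ∑ x, M v x * X x acc ≤ X v acc := by
    intro v hv
    have h1 : M v acc * α acc = ∑ x, M v x * (if x = acc then α x else 0) := by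
      simp
    rw [happ v, h1, ← sum_add_distrib, mul_sum]
    apply sum_le_sum
    intro x _
    by_cases hx : R x
    · have h2 : M v x * (if x = acc then α x else 0) + M v x * (1 - α x) * X x acc =
          M v x * ((if x = acc then α x else 0) + (1 - α x) * X x acc) := by ring
      rw [h2, show (1 - a) * (M v x * X x acc) = M v x * ((1 - a) * X x acc) by ring]
      apply mul_le_mul_of_nonneg_left _ (hM.nn v x)
      rw [hR x hx]
      split_ifs with h
      · rw [h, hXacc]
        have := ha0.le.trans (hα acc)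
        have h3 : 0 ≤ a := by
          have h4 := hα x
          rw [hR x hx] at h4
          linarith
        linarith
      · linarith
    · rw [hcl v x hv hx]; simp
  have hclT : ∀ (T : ℕ) (v x : V), R v → ¬ R x → (M ^ T) v x = 0 := by
    intro T
    induction T with
    | zero =>
      intro v x hv hx
      rw [pow_zero, one_apply, if_neg]
      rintro rfl
      exact hx hv
    | succ T ih =>
      intro v x hv hx
      rw [pow_succ, mul_apply]
      apply sum_eq_zero
      intro y _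
      by_cases hy : R y
      · rw [hcl y x hy hx, mul_zero]
      · rw [ih v y hv hy, zero_mul]
  have hMT : ∀ (T : ℕ) (v x : V), 0 ≤ (M ^ T) v x := by
    intro T
    induction T with
    | zero => intro v x; rw [pow_zero, one_apply]; split_ifs <;> norm_num
    | succ T ih =>
      intro v x
      rw [pow_succ, mul_apply]
      exact sum_nonneg (fun y _ => mul_nonneg (ih v y) (hM.nn y x))
  have hT : ∀ T, (1 - a) ^ T * ∑ x, (M ^ T) v x * X x acc ≤ X v acc := by
    intro T
    induction T with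
    | zero =>
      simp [one_apply]
    | succ T ih =>
      refine le_trans ?_ ih
      have h1 : ∑ x, (M ^ (T + 1)) v x * X x acc =
          ∑ y, (M ^ T) v y * ∑ x, M y x * X x acc := by
        simp only [pow_succ, mul_apply, sum_mul, mul_sum]
        rw [sum_comm]
        apply sum_congr rfl
        intro y _
        apply sum_congr rfl
        intro x _
        ring
      rw [h1, pow_succ, mul_assoc]
      apply mul_le_mul_of_nonneg_left _ (pow_nonneg (by linarith) T)
      rw [mul_sum]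
      apply sum_le_sum
      intro y _
      by_cases hy : R y
      · calc (1 - a) * ((M ^ T) v y * ∑ x, M y x * X x acc)
            = (M ^ T) v y * ((1 - a) * ∑ x, M y x * X x acc) := by ring
          _ ≤ (M ^ T) v y * X y acc :=
              mul_le_mul_of_nonneg_left (hstep y hy) (hMT T v y)
      · rw [hclT T v y hv hy]; simp
  refine le_trans ?_ (hT T)
  apply mul_le_mul_of_nonneg_left _ (pow_nonneg (by linarith) T)
  have h1 : (M ^ T) v acc * X acc acc ≤ ∑ x, (M ^ T) v x * X x acc :=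
    single_le_sum (f := fun x => (M ^ T) v x * X x acc)
      (fun x _ => mul_nonneg (hMT T v x) (hX.nn x acc)) (mem_univ acc)
  rwa [hXacc, mul_one] at h1

/-- The decision at the end: acceptance. -/
theorem final_acc {M N X : Matrix V V ℝ} {a ε : ℝ} {T : ℕ} {st acc : V}
    (ha1 : a ≤ 1) (haT : a * T ≤ 1 / 20) (hε : ε ≤ 1 / 20) (hNX : RDg N X ε)
    (hX : (1 - a) ^ T * (M ^ T) st acc ≤ X st acc) (hp : 2 / 3 ≤ (M ^ T) st acc) :
    1 / 2 < N st acc := by
  have h1 : 1 - a * T ≤ (1 - a) ^ T := by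
    have := one_add_mul_le_pow (a := -a) (by linarith) T
    have h2 : (1 + -a) ^ T = (1 - a) ^ T := by ring_nf
    rw [h2] at this
    linarith
  have h2 := hNX.entry st acc
  have h3 := (abs_le.1 h2).1
  have h4 : (1 - 1 / 20 : ℝ) * (2 / 3) ≤ (1 - a) ^ T * (M ^ T) st acc :=
    mul_le_mul (by linarith) hp (by norm_num) (by linarith)
  linarith

/-- The decision at the end: rejection. -/
theorem final_rej {M N X : Matrix V V ℝ} {a ε : ℝ} {T : ℕ} {st acc rej : V} (hN : Sto N)
    (har : acc ≠ rej) (ha1 : a ≤ 1) (haT : a * T ≤ 1 / 20) (hε : ε ≤ 1 / 20)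
    (hNX : RDg N X ε) (hX : (1 - a) ^ T * (M ^ T) st rej ≤ X st rej)
    (hp : 2 / 3 ≤ (M ^ T) st rej) : N st acc < 1 / 2 := by
  have h1 := final_acc ha1 haT hε hNX hX hp
  have h2 := hN.row st
  have h3 : N st acc + N st rej ≤ ∑ x, N st x := by
    rw [← sum_pair (f := fun x => N st x) har]
    exact sum_le_sum_of_subset_of_nonneg (subset_univ _) (fun x _ _ => hN.nn st x)
  linarith

/-! ### The potential -/

/-- Schedule of a run: `e s w` counts how often `w` was exceptional, `k s w` how often the stopping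
probability at `w` was lowered; `w` is finished when `k s w = K`. -/
structure Sched (q K : ℕ) (Zst : ℕ → Finset V) (k e : ℕ → V → ℕ) (S : ℕ) : Prop where
  k0 : ∀ w, k 0 w ≤ K
  e0 : ∀ w, e 0 w = 0
  ke : ∀ s < S, ∀ w, k (s + 1) w = if w ∈ Zst s ∨ K ≤ k s w then k s w else k s w + 1
  es : ∀ s < S, ∀ w, e (s + 1) w = if w ∈ Zst s ∧ k s w < K then e s w + 1 else e s w
  mass : ∀ s < S, q ^ 3 * ∑ w ∈ Zst s, q ^ e s w ≤ ∑ w, q ^ e s w

namespace Sched

variable {q K S : ℕ} {Zst : ℕ → Finset V} {k e : ℕ → V → ℕ}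

theorem k_le (h : Sched q K Zst k e S) : ∀ s ≤ S, ∀ w, k s w ≤ K := by
  intro s
  induction s with
  | zero => intro _ w; exact h.k0 w
  | succ s ih =>
    intro hs w
    have := ih (by omega) w
    rw [h.ke s (by omega) w]
    split_ifs with h1
    · exact this
    · push Not at h1
      omega

theorem mass_step (h : Sched q K Zst k e S) {s : ℕ} (hs : s < S) :
    q ^ 2 * ∑ w, q ^ e (s + 1) w ≤ (q ^ 2 + 1) * ∑ w, q ^ e s w := by
  have h1 : ∑ w, q ^ e (s + 1) w ≤ ∑ w, q ^ e s w + ∑ w ∈ Zst s, q * q ^ e s w := by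
    have h2 : ∑ w ∈ Zst s, q * q ^ e s w = ∑ w, if w ∈ Zst s then q * q ^ e s w else 0 := by
      rw [← sum_filter]
      congr 1
      ext w
      simp
    rw [h2, ← sum_add_distrib]
    apply sum_le_sum
    intro w _
    rw [h.es s hs w]
    by_cases hw : w ∈ Zst s
    · rw [if_pos hw]
      split_ifs with h3
      · rw [pow_succ]
        have : q ^ e s w * q = q * q ^ e s w := mul_comm _ _
        omega
      · omega
    · rw [if_neg hw, if_neg (fun h4 => hw h4.1)]
      omega
  have h5 := h.mass s hs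
  rw [← mul_sum] at h1
  calc q ^ 2 * ∑ w, q ^ e (s + 1) w
      ≤ q ^ 2 * (∑ w, q ^ e s w + q * ∑ w ∈ Zst s, q ^ e s w) := Nat.mul_le_mul_left _ h1
    _ = q ^ 2 * ∑ w, q ^ e s w + q ^ 3 * ∑ w ∈ Zst s, q ^ e s w := by ring
    _ ≤ q ^ 2 * ∑ w, q ^ e s w + ∑ w, q ^ e s w := Nat.add_le_add_left h5 _
    _ = (q ^ 2 + 1) * ∑ w, q ^ e s w := by ring

theorem mass_le (h : Sched q K Zst k e S) (hq : 0 < q) (hS : 2 * S ≤ q ^ 2) :
    ∀ s ≤ S, (∑ w, q ^ e s w : ℕ) ≤ 2 * Fintype.card V := by
  have hq' : (0 : ℝ) < q := by exact_mod_cast hq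
  have h1 : ∀ s ≤ S, ((∑ w, q ^ e s w : ℕ) : ℝ) ≤ (1 + 1 / (q : ℝ) ^ 2) ^ s *
      Fintype.card V := by
    intro s
    induction s with
    | zero =>
      intro _
      simp [h.e0]
    | succ s ih =>
      intro hs
      have h2 := ih (by omega)
      have h3 := h.mass_step (show s < S by omega)
      have h4 : (q : ℝ) ^ 2 * ((∑ w, q ^ e (s + 1) w : ℕ) : ℝ) ≤
          ((q : ℝ) ^ 2 + 1) * ((∑ w, q ^ e s w : ℕ) : ℝ) := by exact_mod_cast h3
      have h5 : ((∑ w, q ^ e (s + 1) w : ℕ) : ℝ) ≤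
          (1 + 1 / (q : ℝ) ^ 2) * ((∑ w, q ^ e s w : ℕ) : ℝ) := by
        have h6 : (0 : ℝ) < (q : ℝ) ^ 2 := by positivity
        rw [← mul_le_mul_iff_right₀ h6]
        refine h4.trans (le_of_eq ?_)
        field_simp
      refine h5.trans ?_
      rw [pow_succ (1 + 1 / (q : ℝ) ^ 2), mul_comm ((1 + 1 / (q : ℝ) ^ 2) ^ s), mul_assoc]
      exact mul_le_mul_of_nonneg_left h2 (by positivity)
  intro s hs
  have h2 := h1 s hs
  have h3 : (1 + 1 / (q : ℝ) ^ 2) ^ s ≤ 2 := by
    have h4 : (1 + 1 / (q : ℝ) ^ 2) ≤ Real.exp (1 / (q : ℝ) ^ 2) := by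
      have := Real.add_one_le_exp (1 / (q : ℝ) ^ 2)
      linarith
    have h5 : (1 + 1 / (q : ℝ) ^ 2) ^ s ≤ Real.exp (1 / (q : ℝ) ^ 2) ^ s :=
      pow_le_pow_left₀ (by positivity) h4 s
    rw [← Real.exp_nat_mul] at h5
    have h6 : (s : ℝ) * (1 / (q : ℝ) ^ 2) ≤ 1 / 2 := by
      have h7 : (2 * s : ℝ) ≤ (q : ℝ) ^ 2 := by
        have : 2 * s ≤ q ^ 2 := by omega
        exact_mod_cast this
      rw [mul_one_div, div_le_div_iff₀ (by positivity) (by norm_num)]
      linarith
    have h8 : Real.exp ((s : ℝ) * (1 / (q : ℝ) ^ 2)) ≤ Real.exp (1 / 2) := Real.exp_le_exp.2 h6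
    have h9 : Real.exp (1 / 2) ≤ 2 := by
      have h10 : Real.exp (1 / 2) ^ 2 = Real.exp 1 := by
        rw [← Real.exp_nat_mul]; norm_num
      have h11 := Real.exp_one_lt_d9
      nlinarith [Real.exp_pos (1 / 2 : ℝ)]
    linarith
  have h4 : ((∑ w, q ^ e s w : ℕ) : ℝ) ≤ ((2 * Fintype.card V : ℕ) : ℝ) := by
    push_cast at h2 ⊢
    refine h2.trans ?_
    exact mul_le_mul_of_nonneg_right h3 (Nat.cast_nonneg _)
  exact_mod_cast h4

theorem pow_e_le (h : Sched q K Zst k e S) (hq : 0 < q) (hS : 2 * S ≤ q ^ 2) {s : ℕ}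
    (hs : s ≤ S) (w : V) : q ^ e s w ≤ 2 * Fintype.card V :=
  le_trans (single_le_sum (f := fun w => q ^ e s w) (fun _ _ => Nat.zero_le _) (mem_univ w))
    (h.mass_le hq hS s hs)

theorem progress (h : Sched q K Zst k e S) : ∀ s ≤ S, ∀ w, k s w < K → s ≤ e s w + k s w := by
  intro s
  induction s with
  | zero => intro _ w _; omega
  | succ s ih =>
    intro hs w hw
    have h1 := h.ke s (by omega) w
    have h2 := h.es s (by omega) w
    by_cases hk : k s w < K
    · have h3 := ih (by omega) w hk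
      by_cases hz : w ∈ Zst s
      · rw [if_pos (Or.inl hz)] at h1
        rw [if_pos ⟨hz, hk⟩] at h2
        omega
      · rw [if_neg (by push Not; exact ⟨hz, hk⟩)] at h1
        rw [if_neg (fun h4 => hz h4.1)] at h2
        omega
    · rw [if_pos (Or.inr (by omega))] at h1
      omega

/-- At the end all states are finished. -/
theorem done (h : Sched q K Zst k e S) (hq : 0 < q) (hS : 2 * S ≤ q ^ 2)
    (hbig : 2 * Fintype.card V < q ^ (S + 1 - K)) (hKS : K ≤ S + 1) (w : V) : k S w = K := by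
  have h1 := h.k_le S le_rfl w
  by_contra hne
  have h2 : k S w < K := lt_of_le_of_ne h1 hne
  have h3 := h.progress S le_rfl w h2
  have h4 : S + 1 - K ≤ e S w := by omega
  have h5 := h.pow_e_le hq hS le_rfl w
  have h6 : q ^ (S + 1 - K) ≤ q ^ e S w := Nat.pow_le_pow_right hq h4
  omega

/-- The product of the thinning factors. -/
theorem prod_beta (h : Sched q K Zst k e S) {b : ℝ} {β : ℕ → V → ℝ}
    (hβ : ∀ s w, β s w = if w ∈ Zst s ∨ K ≤ k s w then 1 else b) {s : ℕ} (hs : s ≤ S) {w : V}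
    (hw : k 0 w = 0) : ∏ i ∈ range s, β i w = b ^ k s w := by
  induction s with
  | zero => simp [hw]
  | succ s ih =>
    rw [prod_range_succ, ih (by omega), hβ s w, h.ke s (by omega) w]
    split_ifs with h1
    · rw [mul_one]
    · rw [pow_succ]

end Sched

end Vale.Agent.P313.H974
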