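import Vale.Agent.P313.BP.Canon
import Vale.Agent.P313.H974.Stage
import Vale.Agent.P313.H974.Fix

/-!
The interface between the analysis of one stage and the composition of the stages.
-/

namespace Vale.Agent.P313.H974

open Finset Matrix Vale.Agent.P313.BP

variable (p : Par) (S : Sem)

/-- The matrix of a stage datum. -/
noncomputable def Nm (d : SD) : Matrix (Fin p.n) (Fin p.n) ℝ :=
  fun v x => (d.A v x : ℝ) / (p.q : ℝ) ^ p.b

/-- The weights of a stage datum. -/
noncomputable def hw (d : SD) : Fin p.n → ℝ := fun v => (p.q : ℝ) ^ (d.c v - p.b)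

/-- The kernels of a stage as matrices. -/
noncomputable def Pm (d : SD) (Z : ℕ → Prop) (a : ℕ) : Matrix (Fin p.n) (Fin p.n) ℝ :=
  fun v x => S.P d Z a v x

open Classical in
/-- The thinning factors of a stage which avoids `Z`. -/
noncomputable def bet (Z : ℕ → Prop) : Fin p.n → ℝ := fun x => if Z x then 1 else (1 / 2) ^ p.rk

/-- `κ = 1 - 2 ^ (-rk)`. -/
noncomputable def kap : ℝ := 1 - (1 / 2) ^ p.rk

/-- `L = I - κ N_Z`. -/
noncomputable def Lr (d : SD) (Z : ℕ → Prop) : Matrix (Fin p.n) (Fin p.n) ℝ :=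
  1 - Nm p d * diagonal (fun x => 1 - bet p Z x)

/-- Valid stage data. -/
structure Val (d : SD) : Prop where
  row : ∀ v < p.n, ∑ x ∈ range p.n, d.A v x = p.q ^ p.b
  cb : ∀ v < p.n, p.b ≤ d.c v
  mass : ∑ v ∈ range p.n, p.q ^ (d.c v - p.b) ≤ 2 * p.n

/-- `F = h (I + P_{r-1}) ⋯ (I + P_0)` without exceptional set. -/
noncomputable def Fr (d : SD) (x : Fin p.n) : ℝ :=
  ∑ v : Fin p.n, hw p d v * gprod (fun a => 1 + Pm p S d (fun _ => False) a) p.r v x

/-- The set `Z` contains all states where `h N` or `F` is large. -/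
def Big (d : SD) (Z : ℕ → Prop) : Prop :=
  ∀ x : Fin p.n, ¬ Z x → ∑ v : Fin p.n, hw p d v * Nm p d v x ≤ (p.q : ℝ) ^ 4 * hw p d x ∧
    Fr p S d x ≤ (p.q : ℝ) ^ 4 * hw p d x

/-- What the analysis of one stage provides. -/
structure SemOK : Prop where
  /-- the kernels are substochastic -/
  nn : ∀ d Z a v x, 0 ≤ S.P d Z a v x
  row : ∀ d Z, Val p d → ∀ a < p.r, ∀ v : Fin p.n, ∑ x : Fin p.n, S.P d Z a v x ≤ 1
  loss_nn : ∀ d Z x, 0 ≤ S.loss d Z x
  /-- the total loss is small -/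
  lossmass : ∀ d Z, Val p d → Big p S d Z →
    2 * (p.q : ℝ) ^ 10 * ∑ x : Fin p.n, hw p d x * S.loss d Z x ≤ ∑ x : Fin p.n, hw p d x
  /-- the preconditioner built from the exact kernels is good, if the set `Z'` which is avoided
  contains `Z` and the states of large loss -/
  pre : ∀ (d : SD) (Z Z' : ℕ → Prop), Val p d → Big p S d Z → (∀ x, Z x → Z' x) →
    (∀ x : Fin p.n, ¬ Z' x → S.loss d Z x ≤ 2 / (p.q : ℝ) ^ 7) →
    IsBd (hw p d) (1 - gprod (fun a => 1 + kap p ^ 2 ^ a • Pm p S d Z' a) p.r * Lr p d Z')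
      (2 / p.q)

end Vale.Agent.P313.H974
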