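import Vale.Agent.P313.H974.Run

/-!
All stages: the canonical data are valid, and the last matrix decides acceptance.
-/

namespace Vale.Agent.P313.H974

open Finset Matrix Vale.Agent.P313.BP

variable {p : Par} {S : Sem}

/-- The offsets are in range. -/
def Offs (p : Par) (o : ℕ → ℕ → ℕ) : Prop := ∀ s i, o s i ≤ p.D

/-- Number of stages. -/
structure RunOK (p : Par) (Sn : ℕ) : Prop where
  S1 : 2 * Sn ≤ p.q ^ 2
  S2 : p.K ≤ Sn + 1
  S3 : 2 * p.n < p.q ^ (Sn + 1 - p.K)
  S4 : 120 * p.n * (Sn + 1) * 2 ^ (p.rk * Sn) ≤ p.q ^ p.b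

theorem init_val (hp : NumOK p) {cs : ℕ → Bool → ℕ}
    (hcs : ∀ v, v + 1 < p.n → ∀ b, cs v b + 1 < p.n) : Val p (init p cs) := by
  refine ⟨fun v hv => ?_, fun v _ => le_rfl, ?_⟩
  · have hn := hp.n2
    have e2 : range p.n = range ((p.n - 1) + 1) := by congr 1; omega
    by_cases h : v + 1 < p.n
    · have e1 : ∀ x ∈ range (p.n - 1), (init p cs).A v x =
          ((if cs v false = x then 1 else 0) + (if cs v true = x then 1 else 0)) *
            (p.q ^ p.b / 2) := by
        intro x hx
        rw [mem_range] at hx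
        unfold init
        simp only
        rw [if_pos h, if_pos (by omega)]
      have e3 : (init p cs).A v (p.n - 1) = p.q ^ p.b - 2 * (p.q ^ p.b / 2) := by
        unfold init
        simp only
        rw [if_pos h, if_neg (by omega)]
      rw [e2, sum_range_succ, e3, sum_congr rfl e1, ← sum_mul, sum_add_distrib,
        sum_ite_eq, sum_ite_eq, if_pos (mem_range.2 (by have := hcs v h false; omega)),
        if_pos (mem_range.2 (by have := hcs v h true; omega))]
      have : 2 * (p.q ^ p.b / 2) ≤ p.q ^ p.b := Nat.mul_div_le _ _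
      omega
    · have e1 : ∀ x ∈ range p.n, (init p cs).A v x = if v = x then p.q ^ p.b else 0 := by
        intro x _
        unfold init
        simp only
        rw [if_neg h]
        by_cases hx : x = v
        · rw [if_pos hx, if_pos hx.symm]
        · rw [if_neg hx, if_neg (fun h2 => hx h2.symm)]
      rw [sum_congr rfl e1, sum_ite_eq, if_pos (mem_range.2 hv)]
  · have : ∀ v ∈ range p.n, p.q ^ ((init p cs).c v - p.b) = 1 := by
      intro v _
      show p.q ^ (p.b - p.b) = 1
      simp
    rw [sum_congr rfl this]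
    simp only [sum_const, card_range, smul_eq_mul, mul_one]
    omega

theorem cb_next {d : SD} (hd : Val p d) (o o' o'' : ℕ) :
    ∀ v < p.n, p.b ≤ (next p S d o o' o'').c v := by
  intro v hv
  have := hd.cb v hv
  unfold next
  simp only
  omega

open Classical in
/-- The schedule of the canonical data, as long as they are valid. -/
theorem sched_of (hp : NumOK p) (hS : SemOK p S) {cs : ℕ → Bool → ℕ} {o : ℕ → ℕ → ℕ}
    (ho : Offs p o) {s : ℕ} (hv : ∀ i < s, Val p (data p S cs o i)) :
    Sched p.q p.K (fun i => (univ : Finset (Fin p.n)).filter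
      (fun x : Fin p.n => Zst p S (data p S cs o i) (o i 0) (o i 1) (x : ℕ)))
      (fun i w => (data p S cs o i).k w) (fun i w => (data p S cs o i).c w - p.b) s := by
  refine ⟨fun w => ?_, fun w => ?_, fun i hi w => ?_, fun i hi w => ?_, fun i hi => ?_⟩
  · show (if (w : ℕ) + 1 = p.n then p.K else 0) ≤ p.K
    split_ifs
    · exact le_rfl
    · exact Nat.zero_le _
  · show p.b - p.b = 0
    simp
  · show (data p S cs o i).k w + (if Zs p S (data p S cs o i) (o i 0) (o i 1) w then 0 else 1) = _
    simp only [mem_filter, mem_univ, true_and]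
    unfold Zs
    by_cases h : Zst p S (data p S cs o i) (o i 0) (o i 1) w ∨ p.K ≤ (data p S cs o i).k w
    · rw [if_pos h, if_pos h, add_zero]
    · rw [if_neg h, if_neg h]
  · have hc := (hv i hi).cb w w.isLt
    show (data p S cs o i).c w + (if Zst p S (data p S cs o i) (o i 0) (o i 1) w ∧
      (data p S cs o i).k w < p.K then 1 else 0) - p.b = _
    simp only [mem_filter, mem_univ, true_and]
    by_cases h : Zst p S (data p S cs o i) (o i 0) (o i 1) w ∧ (data p S cs o i).k w < p.K
    · rw [if_pos h, if_pos h]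
      omega
    · rw [if_neg h, if_neg h, add_zero]
  · exact mass_Zst hp hS (hv i hi) (ho i 0) (ho i 1)

/-- The canonical data are valid. -/
theorem data_val (hp : NumOK p) (hS : SemOK p S) {cs : ℕ → Bool → ℕ} {o : ℕ → ℕ → ℕ}
    (ho : Offs p o) (hcs : ∀ v, v + 1 < p.n → ∀ b, cs v b + 1 < p.n) {Sn : ℕ}
    (hSn : 2 * Sn ≤ p.q ^ 2) : ∀ s ≤ Sn, Val p (data p S cs o s) := by
  have hq : 0 < p.q := by have := hp.q64; omega
  intro s
  induction s using Nat.strong_induction_on with
  | _ s ih =>
    intro hs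
    rcases Nat.eq_zero_or_pos s with h0 | hpos
    · subst h0
      exact init_val hp hcs
    · obtain ⟨t, rfl⟩ : ∃ t, s = t + 1 := ⟨s - 1, by omega⟩
      have hv : ∀ i < t + 1, Val p (data p S cs o i) := fun i hi => ih i hi (by omega)
      have hsch := sched_of hp hS ho hv
      have hm := hsch.mass_le hq (by omega) (t + 1) le_rfl
      have hvt := hv t (by omega)
      refine ⟨?_, ?_, ?_⟩
      · exact next_row hp hS hvt (ho t 0) (ho t 2)
      · exact cb_next hvt _ _ _
      · rw [Fintype.card_fin] at hm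
        rw [← Fin.sum_univ_eq_sum_range
          (fun v => p.q ^ ((data p S cs o (t + 1)).c v - p.b))]
        exact hm

/-- The weights stay small. -/
theorem c_bound (hp : NumOK p) (hS : SemOK p S) {cs : ℕ → Bool → ℕ} {o : ℕ → ℕ → ℕ}
    (ho : Offs p o) (hcs : ∀ v, v + 1 < p.n → ∀ b, cs v b + 1 < p.n) {Sn : ℕ}
    (hSn : 2 * Sn ≤ p.q ^ 2) {s : ℕ} (hs : s ≤ Sn) {w : ℕ} (hw : w < p.n) :
    p.q ^ ((data p S cs o s).c w - p.b) ≤ 2 * p.n := by
  have h := (data_val hp hS ho hcs hSn s hs).mass
  refine le_trans ?_ h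
  exact single_le_sum (f := fun w => p.q ^ ((data p S cs o s).c w - p.b))
    (fun _ _ => Nat.zero_le _) (mem_range.2 hw)

open Classical in
/-- The weights grow by at most one in every stage. -/
theorem c_le {cs : ℕ → Bool → ℕ} {o : ℕ → ℕ → ℕ} (w : ℕ) : ∀ s,
    (data p S cs o s).c w ≤ p.b + s := by
  intro s
  induction s with
  | zero => exact le_rfl
  | succ s ih =>
    show (data p S cs o s).c w + (if Zst p S (data p S cs o s) (o s 0) (o s 1) w ∧
      (data p S cs o s).k w < p.K then 1 else 0) ≤ _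
    split_ifs <;> omega

open Classical in
/-- The counters are at most `K`. -/
theorem k_le {cs : ℕ → Bool → ℕ} {o : ℕ → ℕ → ℕ} (w : ℕ) : ∀ s,
    (data p S cs o s).k w ≤ p.K := by
  intro s
  induction s with
  | zero =>
    show (if w + 1 = p.n then p.K else 0) ≤ p.K
    split_ifs
    · exact le_rfl
    · exact Nat.zero_le _
  | succ s ih =>
    show (data p S cs o s).k w + (if Zs p S (data p S cs o s) (o s 0) (o s 1) w then 0 else 1) ≤ _
    split_ifs with h
    · exact ih
    · unfold Zs at h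
      push Not at h
      omega

/-- The entries are at most `q ^ b`. -/
theorem A_le {d : SD} (hd : Val p d) {v x : ℕ} (hv : v < p.n) (hx : x < p.n) :
    d.A v x ≤ p.q ^ p.b := by
  rw [← hd.row v hv]
  exact single_le_sum (f := fun x => d.A v x) (fun _ _ => Nat.zero_le _) (mem_range.2 hx)

/-! ### The chain -/

/-- The transition matrix of the chain with the sink. -/
noncomputable def Mc (p : Par) (cs : ℕ → Bool → ℕ) : Matrix (Fin p.n) (Fin p.n) ℝ :=
  fun v x => if (v : ℕ) + 1 < p.n then
    ((if cs v false = x then 1 else 0) + (if cs v true = x then 1 else 0)) / 2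
    else if x = v then 1 else 0

/-- The probability of being in state `w` after `j` coins. -/
noncomputable def hitR (cs : ℕ → Bool → ℕ) (w : ℕ) : ℕ → ℕ → ℝ
  | 0, v => if v = w then 1 else 0
  | j + 1, v => (hitR cs w j (cs v false) + hitR cs w j (cs v true)) / 2

theorem Sto_Mc {cs : ℕ → Bool → ℕ} (hcs : ∀ v, v + 1 < p.n → ∀ b, cs v b + 1 < p.n) :
    Sto (Mc p cs) := by
  refine ⟨fun v x => ?_, fun v => ?_⟩
  · unfold Mc
    split_ifs <;> norm_num
  · unfold Mc
    by_cases h : (v : ℕ) + 1 < p.n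
    · simp only [if_pos h]
      rw [← sum_div, sum_add_distrib]
      have e : ∀ b, ∑ x : Fin p.n, (if cs v b = x then (1 : ℝ) else 0) = 1 := by
        intro b
        rw [Fin.sum_univ_eq_sum_range (fun x => if cs v b = x then (1 : ℝ) else 0), sum_ite_eq,
          if_pos (mem_range.2 (by have := hcs v h b; omega))]
      rw [e, e]
      norm_num
    · simp only [if_neg h]
      simp

theorem Mc_pow {cs : ℕ → Bool → ℕ} (hcs : ∀ v, v + 1 < p.n → ∀ b, cs v b + 1 < p.n)
    (w : Fin p.n) : ∀ (j : ℕ) (v : Fin p.n), (v : ℕ) + 1 < p.n →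
      (Mc p cs ^ j) v w = hitR cs w j v := by
  intro j
  induction j with
  | zero =>
    intro v _
    rw [pow_zero, one_apply]
    simp only [hitR, Fin.ext_iff]
  | succ j ih =>
    intro v hv
    rw [pow_succ', mul_apply]
    have e : ∀ x : Fin p.n, Mc p cs v x * (Mc p cs ^ j) x w =
        ((if cs v false = x then hitR cs w j x else 0) +
          (if cs v true = x then hitR cs w j x else 0)) / 2 := by
      intro x
      unfold Mc
      rw [if_pos hv]
      by_cases h1 : cs v false = x
      · have hx : (x : ℕ) + 1 < p.n := by rw [← h1]; exact hcs v hv false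
        have h3 := ih x hx
        unfold Mc at h3
        rw [h3]
        split_ifs <;> ring
      · by_cases h2 : cs v true = x
        · have hx : (x : ℕ) + 1 < p.n := by rw [← h2]; exact hcs v hv true
          have h3 := ih x hx
          unfold Mc at h3
          rw [h3]
          split_ifs <;> ring
        · rw [if_neg h1, if_neg h2, if_neg h1, if_neg h2]
          ring
    simp only [e]
    rw [← sum_div, sum_add_distrib]
    have e2 : ∀ b, ∑ x : Fin p.n, (if cs v b = x then hitR cs w j x else 0) =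
        hitR cs w j (cs v b) := by
      intro b
      rw [Fin.sum_univ_eq_sum_range (fun x => if cs v b = x then hitR cs w j x else 0),
        sum_ite_eq, if_pos (mem_range.2 (by have := hcs v hv b; omega))]
    rw [e2, e2]
    rfl

theorem init_close (hp : NumOK p) {cs : ℕ → Bool → ℕ}
    (hcs : ∀ v, v + 1 < p.n → ∀ b, cs v b + 1 < p.n) :
    RDg (Nm p (init p cs)) (Mc p cs) (6 * p.n / (p.q : ℝ) ^ p.b) := by
  have hq := qpos hp
  have hqb : (0 : ℝ) < (p.q : ℝ) ^ p.b := by positivity
  have hn : (2 : ℝ) ≤ p.n := by exact_mod_cast hp.n2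
  set B := p.q ^ p.b with hB
  have hB' : ((B : ℕ) : ℝ) = (p.q : ℝ) ^ p.b := by rw [hB]; push_cast; rfl
  have hBpos : (0 : ℝ) < (B : ℝ) := by rw [hB']; exact hqb
  have hhalf : |((B / 2 : ℕ) : ℝ) / B - 1 / 2| ≤ 1 / B := by
    have h1 : 2 * (B / 2) ≤ B := Nat.mul_div_le _ _
    have h2 : B ≤ 2 * (B / 2) + 1 := by omega
    have h1' : 2 * ((B / 2 : ℕ) : ℝ) ≤ B := by exact_mod_cast h1
    have h2' : (B : ℝ) ≤ 2 * ((B / 2 : ℕ) : ℝ) + 1 := by exact_mod_cast h2
    rw [abs_le]
    constructor
    · have h3 : (1 : ℝ) / 2 ≤ (((B / 2 : ℕ) : ℝ) + 1) / B := by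
        rw [div_le_div_iff₀ (by norm_num) hBpos]
        linarith
      rw [add_div] at h3
      linarith
    · rw [sub_le_iff_le_add, div_le_iff₀ hBpos]
      have : (1 / (B : ℝ) + 1 / 2) * B = 1 + B / 2 := by field_simp
      rw [this]
      linarith
  intro v
  by_cases h : (v : ℕ) + 1 < p.n
  · have key : ∀ x : Fin p.n, |Nm p (init p cs) v x - Mc p cs v x| ≤ 2 / B := by
      intro x
      unfold Nm Mc
      rw [if_pos h, ← hB']
      by_cases hx : (x : ℕ) + 1 < p.n
      · have e1 : (init p cs).A v x = ((if cs v false = x then 1 else 0) +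
            (if cs v true = x then 1 else 0)) * (B / 2) := by
          unfold init
          simp only
          rw [if_pos h, if_pos hx]
        rw [e1]
        push_cast
        have e3 : ((if cs v false = x then (1 : ℝ) else 0) + (if cs v true = x then 1 else 0)) *
            ((B / 2 : ℕ) : ℝ) / B - ((if cs v false = x then (1 : ℝ) else 0) +
            (if cs v true = x then 1 else 0)) / 2 =
            ((if cs v false = x then (1 : ℝ) else 0) + (if cs v true = x then 1 else 0)) *
            (((B / 2 : ℕ) : ℝ) / B - 1 / 2) := by ring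
        rw [e3, abs_mul]
        have e4 : |((if cs v false = x then (1 : ℝ) else 0) + (if cs v true = x then 1 else 0))|
            ≤ 2 := by
          split_ifs <;> norm_num
        calc _ ≤ 2 * (1 / (B : ℝ)) := mul_le_mul e4 hhalf (abs_nonneg _) (by norm_num)
          _ = 2 / B := by ring
      · have e1 : (init p cs).A v x = B - 2 * (B / 2) := by
          unfold init
          simp only
          rw [if_pos h, if_neg hx]
        have e2 : B - 2 * (B / 2) ≤ 1 := by omega
        have e2' : (((B - 2 * (B / 2) : ℕ)) : ℝ) ≤ 1 := by exact_mod_cast e2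
        have e3 : cs v false ≠ x := by have := hcs v h false; omega
        have e4 : cs v true ≠ x := by have := hcs v h true; omega
        rw [e1, if_neg e3, if_neg e4]
        simp only [add_zero, zero_div, sub_zero]
        rw [abs_of_nonneg (by positivity)]
        exact div_le_div_of_nonneg_right (e2'.trans (by norm_num)) hBpos.le
    calc ∑ x, |Nm p (init p cs) v x - Mc p cs v x| ≤ ∑ _x : Fin p.n, (2 / B : ℝ) :=
          sum_le_sum (fun x _ => key x)
      _ = p.n * (2 / B) := by rw [sum_const, card_univ, Fintype.card_fin, nsmul_eq_mul]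
      _ ≤ 6 * p.n / (p.q : ℝ) ^ p.b := by
          rw [hB', mul_div_assoc', div_le_div_iff_of_pos_right hqb]
          linarith
  · have key : ∀ x : Fin p.n, |Nm p (init p cs) v x - Mc p cs v x| = 0 := by
      intro x
      unfold Nm Mc
      rw [if_neg h, ← hB']
      have e1 : (init p cs).A v x = if (x : ℕ) = v then B else 0 := by
        unfold init
        simp only
        rw [if_neg h]
      rw [e1]
      by_cases hx : x = v
      · subst hx
        rw [if_pos rfl, if_pos rfl, div_self hBpos.ne']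
        simp
      · rw [if_neg (fun h2 => hx (Fin.ext h2)), if_neg hx]
        simp
    simp only [key, sum_const_zero]
    positivity

/-- **Composition of the stages.** The last canonical matrix is close to the law of the walk which
is stopped with probability `2 ^ (- rk * K)` in every step. -/
theorem comp_close (hp : NumOK p) (hS : SemOK p S) {cs : ℕ → Bool → ℕ} {o : ℕ → ℕ → ℕ}
    (ho : Offs p o) (hcs : ∀ v, v + 1 < p.n → ∀ b, cs v b + 1 < p.n) {Sn : ℕ}
    (hR : RunOK p Sn) : ∃ α : Fin p.n → ℝ, (∀ x, (1 / 2 : ℝ) ^ (p.rk * Sn) ≤ α x) ∧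
      (∀ x, α x ≤ 1) ∧ (∀ x : Fin p.n, (x : ℕ) + 1 < p.n → α x = (1 / 2) ^ (p.rk * p.K)) ∧
      RDg (Nm p (data p S cs o Sn)) (stopLaw (Mc p cs) α) (1 / 20) := by
  classical
  have hq := qpos hp
  have hq0 : 0 < p.q := by have := hp.q64; omega
  have hqb : (0 : ℝ) < (p.q : ℝ) ^ p.b := by positivity
  have hv := data_val hp hS ho hcs hR.S1
  have hsch := sched_of (s := Sn) hp hS (cs := cs) ho (fun i hi => hv i (by omega))
  set β : ℕ → Fin p.n → ℝ := fun s => bet p (Zs p S (data p S cs o s) (o s 0) (o s 1)) with hβ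
  have hb1 : (1 / 2 : ℝ) ^ p.rk ≤ 1 := pow_le_one₀ (by norm_num) (by norm_num)
  have herr := stages_err (Sto_Mc hcs) (N := fun s => Nm p (data p S cs o s)) (β := β)
    (b := (1 / 2) ^ p.rk) (δ := 6 * p.n / (p.q : ℝ) ^ p.b) (S := Sn) (by positivity) hb1
    (fun s hs => Sto_Nm hp (hv s hs)) (fun s x => beta_ge _ x) (fun s x => beta_le _ x)
    (by positivity) (init_close hp hcs)
    (fun s hs => next_close hp hS (hv s (by omega)) (ho s 0) (ho s 2)) Sn le_rfl
  refine ⟨fun x => ∏ i ∈ range Sn, β i x, fun x => ?_, fun x => ?_, fun x hx => ?_, ?_⟩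
  · calc (1 / 2 : ℝ) ^ (p.rk * Sn) = ∏ _i ∈ range Sn, (1 / 2 : ℝ) ^ p.rk := by
          rw [prod_const, card_range, pow_mul]
      _ ≤ _ := prod_le_prod (fun _ _ => by positivity) (fun i _ => beta_ge _ x)
  · exact prod_le_one (fun i _ => le_trans (by positivity) (beta_ge _ x))
      (fun i _ => beta_le _ x)
  · have h1 := hsch.prod_beta (b := (1 / 2 : ℝ) ^ p.rk) (β := β) (fun s w => by
      rw [hβ]
      simp only [mem_filter, mem_univ, true_and]
      unfold bet Zs
      congr) (s := Sn) le_rfl (w := x) (by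
      show (if (x : ℕ) + 1 = p.n then p.K else 0) = 0
      rw [if_neg (by omega)])
    refine h1.trans ?_
    rw [← pow_mul]
    congr 1
    have h2 := hsch.done hq0 hR.S1 (by rw [Fintype.card_fin]; exact hR.S3) hR.S2 x
    rw [h2]
  · refine herr.mono ?_
    have h1 : (120 : ℝ) * p.n * (Sn + 1) * 2 ^ (p.rk * Sn) ≤ (p.q : ℝ) ^ p.b := by
      exact_mod_cast hR.S4
    have e1 : (1 / (1 / 2 : ℝ) ^ p.rk) ^ Sn = 2 ^ (p.rk * Sn) := by
      rw [← _root_.one_div_pow, one_div_one_div, pow_mul]
    rw [e1]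
    have e2 : ((Sn : ℝ) + 1) * 2 ^ (p.rk * Sn) * (6 * p.n / (p.q : ℝ) ^ p.b) =
        (120 * p.n * (Sn + 1) * 2 ^ (p.rk * Sn)) / (20 * (p.q : ℝ) ^ p.b) := by
      field_simp
      ring
    rw [e2, div_le_div_iff₀ (by positivity) (by norm_num)]
    linarith

/-- **The decision.** -/
theorem comp_decide (hp : NumOK p) (hS : SemOK p S) {cs : ℕ → Bool → ℕ} {o : ℕ → ℕ → ℕ}
    (ho : Offs p o) (hcs : ∀ v, v + 1 < p.n → ∀ b, cs v b + 1 < p.n) {Sn : ℕ}
    (hR : RunOK p Sn) {T : ℕ} (hT : 20 * T ≤ 2 ^ (p.rk * p.K)) {st acc rej : ℕ}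
    (hst : st + 1 < p.n) (hacc : acc + 1 < p.n) (hrej : rej + 1 < p.n) (har : acc ≠ rej)
    (hac : ∀ b, cs acc b = acc) (hrc : ∀ b, cs rej b = rej) :
    (2 / 3 ≤ hitR cs acc T st → p.q ^ p.b < 2 * (data p S cs o Sn).A st acc) ∧
    (2 / 3 ≤ hitR cs rej T st → 2 * (data p S cs o Sn).A st acc < p.q ^ p.b) := by
  have hq := qpos hp
  have hqb : (0 : ℝ) < (p.q : ℝ) ^ p.b := by positivity
  obtain ⟨α, hα0, hα1, hαa, hclose⟩ := comp_close hp hS ho hcs hR
  have hM := Sto_Mc (p := p) hcs
  set a : ℝ := (1 / 2) ^ (p.rk * p.K) with ha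
  have ha1 : a ≤ 1 := pow_le_one₀ (by norm_num) (by norm_num)
  have haT : a * T ≤ 1 / 20 := by
    have h1 : (20 : ℝ) * T ≤ 2 ^ (p.rk * p.K) := by exact_mod_cast hT
    rw [ha, one_div, inv_pow, inv_mul_le_iff₀ (by positivity)]
    linarith
  have hN := Sto_Nm hp (data_val hp hS ho hcs hR.S1 Sn le_rfl)
  have hcl : ∀ v x : Fin p.n, (v : ℕ) + 1 < p.n → ¬ ((x : ℕ) + 1 < p.n) → Mc p cs v x = 0 := by
    intro v x hv hx
    unfold Mc
    rw [if_pos hv, if_neg (by have := hcs v hv false; omega),
      if_neg (by have := hcs v hv true; omega)]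
    norm_num
  have habs : ∀ w : Fin p.n, (w : ℕ) + 1 < p.n → (∀ b, cs w b = w) →
      (1 - a) ^ T * hitR cs w T st ≤ stopLaw (Mc p cs) α ⟨st, by omega⟩ w := by
    intro w hw hfix
    have h1 := stopLaw_absorb hM (α := α) (a0 := (1 / 2) ^ (p.rk * Sn)) (a := a)
      (by positivity) hα0 hα1 (R := fun v : Fin p.n => (v : ℕ) + 1 < p.n) ha1
      (fun x hx => hαa x hx) hcl (acc := w) (by
        unfold Mc
        rw [if_pos hw, hfix false, hfix true, if_pos rfl]
        norm_num) T ⟨st, by omega⟩ hst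
    rwa [Mc_pow hcs w T ⟨st, by omega⟩ hst] at h1
  have ea : Nm p (data p S cs o Sn) ⟨st, by omega⟩ ⟨acc, by omega⟩ =
      ((data p S cs o Sn).A st acc : ℝ) / (p.q : ℝ) ^ p.b := rfl
  constructor
  · intro hp2
    have h1 := habs ⟨acc, by omega⟩ hacc hac
    rw [← Mc_pow hcs ⟨acc, by omega⟩ T ⟨st, by omega⟩ hst] at h1
    have h2 := final_acc ha1 haT le_rfl hclose h1
      (by rw [Mc_pow hcs ⟨acc, by omega⟩ T ⟨st, by omega⟩ hst]; exact hp2)
    rw [ea, lt_div_iff₀ hqb] at h2
    have h3 : (p.q : ℝ) ^ p.b < 2 * ((data p S cs o Sn).A st acc : ℝ) := by linarith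
    exact_mod_cast h3
  · intro hp2
    have h1 := habs ⟨rej, by omega⟩ hrej hrc
    rw [← Mc_pow hcs ⟨rej, by omega⟩ T ⟨st, by omega⟩ hst] at h1
    have h2 := final_rej hN (acc := ⟨acc, by omega⟩) (rej := ⟨rej, by omega⟩)
      (fun h => har (Fin.mk.inj_iff.1 h)) ha1 haT le_rfl hclose h1
      (by rw [Mc_pow hcs ⟨rej, by omega⟩ T ⟨st, by omega⟩ hst]; exact hp2)
    rw [ea, div_lt_iff₀ hqb] at h2
    have h3 : 2 * ((data p S cs o Sn).A st acc : ℝ) < (p.q : ℝ) ^ p.b := by linarith
    exact_mod_cast h3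

end Vale.Agent.P313.H974
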