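import Vale.Agent.P313.H974.All

/-!
Sizes of the fixed point numbers of a stage.
-/

namespace Vale.Agent.P313.H974

open Finset Matrix Vale.Agent.P313.BP

variable {p : Par} {S : Sem}

/-- All partial products. -/
theorem prodM_size_aux (hp : NumOK p) {fac : ℕ → ℕ → ℕ → ℕ}
    {F : ℕ → Matrix (Fin p.n) (Fin p.n) ℝ} (hF : ∀ i, RowLe (F i) 2)
    (h0 : ∀ i, ∀ v x : Fin p.n, |fm p (fac i) v x - F i v x| ≤ 2 ^ (p.r + 2) / p.Th) {j : ℕ}
    (hj : j ≤ p.JF) (i : ℕ) (v x : Fin p.n) :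
    prodM p fac j i v x ≤ 2 * 4 ^ p.r * p.Th := by
  have hT : (0 : ℝ) < p.Th := by exact_mod_cast hp.Thpos
  have hη : 1 / (p.Th : ℝ) ≤ 2 ^ (p.r + 2) / p.Th := by
    refine le_trans ?_ (two_div_le hp)
    exact div_le_div_of_nonneg_right (by norm_num) hT.le
  have h := ptree_err (T := fun j i => fm p (prodM p fac j i)) (J := p.JF) (c := 2)
    (by norm_num) (by positivity) hF
    (fun i v x => h0 i v x) (fun j _ i v x => by
      obtain ⟨h1, h2⟩ := prodM_step hp.Thpos fac j i v x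
      rw [abs_le]
      constructor <;> linarith) (by rw [Fintype.card_fin]; exact hp.hsmall) j hj i
  rw [Fintype.card_fin] at h
  have h1 := h.entry v x
  have h2 := (ptree_row (c := 2) (by norm_num) hF j i).entry v x
  rw [Matrix.sub_apply] at h1
  have h3 : (4 : ℝ) ^ j * (p.n * (2 ^ (p.r + 2) / p.Th)) ≤ 1 := by
    refine le_trans ?_ hp.hsmall
    exact mul_le_mul_of_nonneg_right (pow_le_pow_right₀ (by norm_num) hj) (by positivity)
  have h4 : (4 : ℝ) ^ j * 2 ^ 2 ^ j * (p.n * (2 ^ (p.r + 2) / p.Th)) ≤ 2 ^ 2 ^ j := by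
    have h5 := mul_le_mul_of_nonneg_right h3 (show (0 : ℝ) ≤ 2 ^ 2 ^ j by positivity)
    linarith
  have h5 : (2 : ℝ) ^ 2 ^ j ≤ 4 ^ p.r := by
    refine le_trans ?_ hp.pJF2
    exact pow_le_pow_right₀ (by norm_num) (Nat.pow_le_pow_right (by norm_num) hj)
  have h6 : fm p (prodM p fac j i) v x ≤ 2 * 4 ^ p.r := by
    have h7 := (abs_le.1 h1).2
    have h8 := (abs_le.1 h2).2
    linarith
  unfold fm at h6
  rw [div_le_iff₀ hT] at h6
  exact_mod_cast h6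

theorem pr0_le (hp : NumOK p) (hS : SemOK p S) {d : SD} (hd : Val p d) {o : ℕ}
    (ho : o ≤ p.D) {j : ℕ} (hj : j ≤ p.JF) (i : ℕ) {v x : ℕ} (hv : v < p.n) (hx : x < p.n) :
    prodM p (fac0 p S d o) j i v x ≤ 2 * 4 ^ p.r * p.Th := by
  refine prodM_size_aux hp (F := Fex p S d (fun _ => False) 1)
    (fun i => Fex_row hS hd _ zero_le_one le_rfl i) (fun i v x => ?_) hj i ⟨v, hv⟩ ⟨x, hx⟩
  obtain ⟨h3, h4⟩ := fac0_close hp hS d ho i v x
  have h2 := two_div_le hp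
  have hT : (0 : ℝ) < p.Th := by exact_mod_cast hp.Thpos
  have h5 : (0 : ℝ) ≤ 2 / p.Th := by positivity
  rw [abs_le]
  constructor <;> linarith

theorem pr2_le (hp : NumOK p) (hS : SemOK p S) {d : SD} (hd : Val p d) {o o' o'' : ℕ}
    (ho : o'' ≤ p.D) {j : ℕ} (hj : j ≤ p.JF) (i : ℕ) {v x : ℕ} (hv : v < p.n) (hx : x < p.n) :
    prodM p (fac2 p S d o o' o'') j i v x ≤ 2 * 4 ^ p.r * p.Th :=
  prodM_size_aux hp (F := Fex p S d (Zs p S d o o') (kap p))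
    (fun i => Fex_row hS hd _ (kap_nonneg p) (kap_le_one p) i)
    (fun i v x => fac2_close hp hS hd ho i v x) hj i ⟨v, hv⟩ ⟨x, hx⟩

/-- Entries of the preconditioners. -/
theorem fz_Gz_le (hp : NumOK p) (hS : SemOK p S) {d : SD} (hd : Val p d) {o o' o'' : ℕ}
    (ho : o ≤ p.D) (ho'' : o'' ≤ p.D) (j : ℕ) (v x : Fin p.n) :
    |fz p (Gz p S d o o' o'' j) v x| ≤ 3 * p.n * 2 ^ p.rk := by
  obtain ⟨X, θ, hX8, _, hθ0, hθ, hG⟩ := Gz_good hp hS hd (o := o) (o' := o') (o'' := o'') ho ho''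
  have hX8r : (8 : ℝ) ≤ X := by exact_mod_cast hX8
  have hXi : 1 / (X : ℝ) ≤ 1 / 8 := one_div_le_one_div_of_le (by norm_num) hX8r
  have hXi0 : 0 ≤ 1 / (X : ℝ) := by positivity
  have hn : (2 : ℝ) ≤ p.n := by exact_mod_cast hp.n2
  have hqb : (1 : ℝ) ≤ (p.q : ℝ) ^ p.b := by
    have := hp.q64
    exact one_le_pow₀ (by exact_mod_cast (show 1 ≤ p.q by omega))
  have hb0 : (0 : ℝ) < (1 / 2 : ℝ) ^ p.rk := by positivity
  have h1 := precond_size (N := Nm p d) (G := fz p (Gz p S d o o' o'' j))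
    (β := bet p (Zs p S d o o')) (h := hw p d) (H := 2 * p.n) (Sto_Nm hp hd) hb0
    (fun x => beta_ge _ x) (fun x => beta_le _ x) (hw_ge_one hp d) (sum_hw hd)
    (by positivity) (hG j) v x
  have hθ1 : θ ≤ 1 / 100 := by
    have h2 : (900 : ℝ) * 2 * 1 ≤ 900 * p.n * (p.q : ℝ) ^ p.b :=
      mul_le_mul (by linarith) hqb (by norm_num) (by positivity)
    have h3 := mul_le_mul_of_nonneg_left h2 hθ0
    linarith
  have h8 : (1 / (X : ℝ)) ^ 2 ^ j ≤ 1 / 8 := by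
    calc (1 / (X : ℝ)) ^ 2 ^ j ≤ (1 / (X : ℝ)) ^ 1 :=
          pow_le_pow_of_le_one hXi0 (by linarith) Nat.one_le_two_pow
      _ = 1 / (X : ℝ) := pow_one _
      _ ≤ 1 / 8 := hXi
  have e1 : 1 / (1 / 2 : ℝ) ^ p.rk = 2 ^ p.rk := by
    rw [← _root_.one_div_pow, one_div_one_div]
  rw [e1] at h1
  refine h1.trans (mul_le_mul_of_nonneg_right ?_ (by positivity))
  have h9 : ((1 / (X : ℝ)) ^ 2 ^ j + 2 * θ) * Real.sqrt (2 * p.n) ≤ 1 * (2 * p.n) :=
    mul_le_mul (by linarith) (sqrt_le_2n hp) (Real.sqrt_nonneg _) (by norm_num)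
  linarith

theorem Gz_le (hp : NumOK p) (hS : SemOK p S) {d : SD} (hd : Val p d) {o o' o'' : ℕ}
    (ho : o ≤ p.D) (ho'' : o'' ≤ p.D) (j : ℕ) {v x : ℕ} (hv : v < p.n) (hx : x < p.n) :
    |Gz p S d o o' o'' j v x| ≤ (3 * p.n * 2 ^ p.rk * p.Th : ℕ) := by
  have hT : (0 : ℝ) < p.Th := by exact_mod_cast hp.Thpos
  have h := fz_Gz_le hp hS hd (o := o) (o' := o') (o'' := o'') ho ho'' j ⟨v, hv⟩ ⟨x, hx⟩
  unfold fz at h
  rw [abs_div, abs_of_pos hT, div_le_iff₀ hT] at h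
  have h2 : ((|Gz p S d o o' o'' j v x| : ℤ) : ℝ) ≤ ((3 * p.n * 2 ^ p.rk * p.Th : ℕ) : ℝ) := by
    push_cast
    exact h
  exact_mod_cast h2

theorem Hn_le (hp : NumOK p) (hS : SemOK p S) {d : SD} (hd : Val p d) {o o' o'' : ℕ}
    (ho : o ≤ p.D) (ho'' : o'' ≤ p.D) (j : ℕ) {v x : ℕ} (hv : v < p.n) (hx : x < p.n) :
    |Hn p (Lm p S d o o') (Gz p S d o o' o'' j) v x| ≤
      (6 * p.n ^ 2 * 2 ^ p.rk * p.Th : ℕ) := by
  have hT : (0 : ℝ) < p.Th := by exact_mod_cast hp.Thpos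
  have hn : (2 : ℝ) ≤ p.n := by exact_mod_cast hp.n2
  obtain ⟨R1, R2, h1, _, h3, _⟩ := newton_step hp (Lm p S d o o') (Gz p S d o o' o'' j)
  have e := congrFun (congrFun h3 ⟨v, hv⟩) ⟨x, hx⟩
  have hL := Lr_row hp hd (Zs p S d o o')
  have hTh1 : (1 : ℝ) ≤ p.Th := by exact_mod_cast hp.Thpos
  have hrk : (1 : ℝ) ≤ 2 ^ p.rk := one_le_pow₀ (by norm_num)
  have key : |fz p (Hn p (Lm p S d o o') (Gz p S d o o' o'' j)) ⟨v, hv⟩ ⟨x, hx⟩| ≤
      6 * (p.n : ℝ) ^ 2 * 2 ^ p.rk := by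
    rw [e, Matrix.sub_apply, Matrix.add_apply, Lm_eq hp]
    have a1 : |(2 : Matrix (Fin p.n) (Fin p.n) ℝ) ⟨v, hv⟩ ⟨x, hx⟩| ≤ 2 := by
      have : (2 : Matrix (Fin p.n) (Fin p.n) ℝ) = 1 + 1 := by norm_num
      rw [this, Matrix.add_apply, one_apply]
      split_ifs <;> norm_num
    have a2 : |R1 ⟨v, hv⟩ ⟨x, hx⟩| ≤ 1 := by
      refine (h1 _ _).trans ?_
      rw [div_le_one hT]
      exact hTh1
    have a3 : |(fz p (Gz p S d o o' o'' j) * Lr p d (Zs p S d o o')) ⟨v, hv⟩ ⟨x, hx⟩| ≤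
        3 * (p.n : ℝ) ^ 2 * 2 ^ p.rk := by
      rw [mul_apply]
      refine (abs_sum_le_sum_abs _ _).trans ?_
      have hLe : ∀ y z : Fin p.n, |Lr p d (Zs p S d o o') y z| ≤ 1 := by
        intro y z
        have hN := Sto_Nm hp hd
        unfold Lr
        rw [Matrix.sub_apply, mul_diagonal_apply', one_apply]
        have b1 := hN.nn y z
        have b2 : Nm p d y z ≤ 1 := by
          rw [← hN.row y]
          exact single_le_sum (f := fun z => Nm p d y z) (fun z _ => hN.nn y z) (mem_univ z)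
        have b3 : 0 ≤ 1 - bet p (Zs p S d o o') z := by
          linarith [beta_le (p := p) (Zs p S d o o') z]
        have b4 : 1 - bet p (Zs p S d o o') z ≤ 1 := by
          have := beta_ge (p := p) (Zs p S d o o') z
          have h4 : (0 : ℝ) ≤ (1 / 2) ^ p.rk := by positivity
          linarith
        have b5 : 0 ≤ Nm p d y z * (1 - bet p (Zs p S d o o') z) := mul_nonneg b1 b3
        have b6 : Nm p d y z * (1 - bet p (Zs p S d o o') z) ≤ 1 := mul_le_one₀ b2 b3 b4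
        split_ifs
        · rw [abs_le]; constructor <;> linarith
        · rw [abs_le]; constructor <;> linarith
      calc ∑ y, |fz p (Gz p S d o o' o'' j) ⟨v, hv⟩ y * Lr p d (Zs p S d o o') y ⟨x, hx⟩|
          ≤ ∑ _y : Fin p.n, 3 * (p.n : ℝ) * 2 ^ p.rk := by
            apply sum_le_sum
            intro y _
            rw [abs_mul]
            calc _ ≤ |fz p (Gz p S d o o' o'' j) ⟨v, hv⟩ y| * 1 :=
                  mul_le_mul_of_nonneg_left (hLe y _) (abs_nonneg _)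
              _ ≤ _ := by
                  rw [mul_one]
                  exact fz_Gz_le hp hS hd ho ho'' j _ _
        _ = _ := by
            rw [sum_const, card_univ, Fintype.card_fin, nsmul_eq_mul]; ring
    refine (abs_sub _ _).trans ?_
    have a4 := abs_add_le ((fz p (Gz p S d o o' o'' j) * Lr p d (Zs p S d o o')) ⟨v, hv⟩ ⟨x, hx⟩)
      (R1 ⟨v, hv⟩ ⟨x, hx⟩)
    have a5 : (3 : ℝ) ≤ 3 * (p.n : ℝ) ^ 2 * 2 ^ p.rk := by
      have : (1 : ℝ) ≤ (p.n : ℝ) ^ 2 := one_le_pow₀ (by linarith)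
      nlinarith
    linarith
  unfold fz at key
  rw [abs_div, abs_of_pos hT, div_le_iff₀ hT] at key
  have h2 : ((|Hn p (Lm p S d o o') (Gz p S d o o' o'' j) v x| : ℤ) : ℝ) ≤
      ((6 * p.n ^ 2 * 2 ^ p.rk * p.Th : ℕ) : ℝ) := by
    push_cast
    exact key
  exact_mod_cast h2

theorem Phi_le (hp : NumOK p) (hS : SemOK p S) {d : SD} (hd : Val p d) {o o' o'' : ℕ}
    (ho : o ≤ p.D) (ho'' : o'' ≤ p.D) {v x : ℕ} (hv : v < p.n) (hx : x < p.n) :
    Phi p S d o o' o'' v x ≤ (p.q ^ p.b + 1 : ℕ) := by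
  obtain ⟨h1, _⟩ := Phi_close hp hS hd (o := o) (o' := o') ho ho'' ⟨v, hv⟩ ⟨x, hx⟩
  have hX := Sto_Xs (S := S) hp hd o o'
  have h2 : Xs p S d o o' ⟨v, hv⟩ ⟨x, hx⟩ ≤ 1 := by
    rw [← hX.row ⟨v, hv⟩]
    exact single_le_sum (f := fun z => Xs p S d o o' ⟨v, hv⟩ z) (fun z _ => hX.nn _ z)
      (mem_univ _)
  have hqb : (0 : ℝ) ≤ (p.q : ℝ) ^ p.b := by positivity
  have h3 : (p.q : ℝ) ^ p.b * Xs p S d o o' ⟨v, hv⟩ ⟨x, hx⟩ ≤ (p.q : ℝ) ^ p.b :=
    mul_le_of_le_one_right hqb h2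
  have h4 : ((Phi p S d o o' o'' v x : ℤ) : ℝ) ≤ ((p.q ^ p.b + 1 : ℕ) : ℝ) := by
    push_cast
    linarith
  exact_mod_cast h4

end Vale.Agent.P313.H974
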