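import Mathlib.LinearAlgebra.Matrix.NonsingularInverse
import Mathlib.LinearAlgebra.Matrix.ToLin
import Mathlib.Data.Real.Basic
import Mathlib.Tactic

/-!
Stopped chains: the law of the state where a walk is stopped, thinning, and its stability.
-/

namespace Vale.Agent.P313.H974

open Finset Matrix

set_option linter.unusedSectionVars false

variable {V : Type*} [Fintype V] [DecidableEq V]

/-- Stochastic matrices. -/
structure Sto (N : Matrix V V ℝ) : Prop where
  nn : ∀ v x, 0 ≤ N v x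
  row : ∀ v, ∑ x, N v x = 1

/-- Row-wise distance at most `ε`. -/
def RDg (X Y : Matrix V V ℝ) (ε : ℝ) : Prop := ∀ v, ∑ x, |X v x - Y v x| ≤ ε

/-- Nonnegative matrices with row sums at most `1 - a`. -/
structure Sub (B : Matrix V V ℝ) (a : ℝ) : Prop where
  nn : ∀ v x, 0 ≤ B v x
  row : ∀ v, ∑ x, B v x ≤ 1 - a

/-- The law of the state where the walk with transition matrix `M` is stopped, if it is stopped
with probability `α x` whenever it comes to `x`. -/
noncomputable def stopLaw (M : Matrix V V ℝ) (α : V → ℝ) : Matrix V V ℝ :=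
  (1 - M * diagonal (fun x => 1 - α x))⁻¹ * (M * diagonal α)

theorem RDg.refl (X : Matrix V V ℝ) : RDg X X 0 := by
  intro v; simp

theorem RDg.symm {X Y : Matrix V V ℝ} {ε : ℝ} (h : RDg X Y ε) : RDg Y X ε := by
  intro u
  simpa only [abs_sub_comm] using h u

theorem RDg.mono {X Y : Matrix V V ℝ} {ε ε' : ℝ} (h : RDg X Y ε) (h' : ε ≤ ε') :
    RDg X Y ε' := fun u => (h u).trans h'

theorem RDg.trans {X Y Z : Matrix V V ℝ} {ε ε' : ℝ} (h : RDg X Y ε) (h' : RDg Y Z ε') :
    RDg X Z (ε + ε') := by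
  intro u
  refine le_trans ?_ (add_le_add (h u) (h' u))
  rw [← sum_add_distrib]
  exact sum_le_sum (fun v _ => abs_sub_le _ _ _)

theorem RDg.entry {X Y : Matrix V V ℝ} {ε : ℝ} (h : RDg X Y ε) (u v : V) :
    |X u v - Y u v| ≤ ε :=
  le_trans (single_le_sum (f := fun v => |X u v - Y u v|) (fun _ _ => abs_nonneg _)
    (mem_univ v)) (h u)

/-- Minimum principle. -/
theorem Sub.min_principle {B : Matrix V V ℝ} {a : ℝ} (hB : Sub B a) (ha : 0 < a)
    {u w : V → ℝ} (hw : ∀ v, 0 ≤ w v) (h : ∀ v, u v = ∑ x, B v x * u x + w v) (v : V) :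
    0 ≤ u v := by
  obtain ⟨m, -, hm⟩ := exists_min_image univ u ⟨v, mem_univ v⟩
  by_contra hneg
  have hmneg : u m < 0 := lt_of_le_of_lt (hm v (mem_univ v)) (not_le.1 hneg)
  have h1 : (∑ x, B m x) * u m ≤ ∑ x, B m x * u x := by
    rw [sum_mul]
    exact sum_le_sum (fun x _ => mul_le_mul_of_nonneg_left (hm x (mem_univ x)) (hB.nn m x))
  have h2 : (1 - a) * u m ≤ (∑ x, B m x) * u m :=
    mul_le_mul_of_nonpos_right (hB.row m) hmneg.le
  have h3 := h m
  have h4 := hw m
  nlinarith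

/-- The equation `u = B u + w`. -/
theorem mulVec_sub_apply (B : Matrix V V ℝ) (u : V → ℝ) (v : V) :
    ((1 - B) *ᵥ u) v = u v - ∑ x, B v x * u x := by
  rw [sub_mulVec, one_mulVec, Pi.sub_apply]
  rfl

theorem Sub.isUnit {B : Matrix V V ℝ} {a : ℝ} (hB : Sub B a) (ha : 0 < a) :
    IsUnit (1 - B) := by
  rw [← mulVec_injective_iff_isUnit]
  intro u u' huu
  have h : ∀ v, u v - u' v = ∑ x, B v x * (u x - u' x) + 0 := by
    intro v
    have := congrFun huu v
    simp only [mulVec_sub_apply] at this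
    simp only [mul_sub, sum_sub_distrib]
    linarith
  have h' : ∀ v, u' v - u v = ∑ x, B v x * (u' x - u x) + 0 := by
    intro v
    have := congrFun huu v
    simp only [mulVec_sub_apply] at this
    simp only [mul_sub, sum_sub_distrib]
    linarith
  funext v
  have h1 := hB.min_principle ha (u := fun v => u v - u' v) (w := fun _ => 0)
    (fun _ => le_rfl) h v
  have h2 := hB.min_principle ha (u := fun v => u' v - u v) (w := fun _ => 0)
    (fun _ => le_rfl) h' v
  linarith

theorem Sub.isUnit_det {B : Matrix V V ℝ} {a : ℝ} (hB : Sub B a) (ha : 0 < a) :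
    IsUnit (1 - B).det := (isUnit_iff_isUnit_det _).1 (hB.isUnit ha)

theorem Sub.inv_mul {B : Matrix V V ℝ} {a : ℝ} (hB : Sub B a) (ha : 0 < a) :
    (1 - B)⁻¹ * (1 - B) = 1 := nonsing_inv_mul _ (hB.isUnit_det ha)

theorem Sub.mul_inv {B : Matrix V V ℝ} {a : ℝ} (hB : Sub B a) (ha : 0 < a) :
    (1 - B) * (1 - B)⁻¹ = 1 := mul_nonsing_inv _ (hB.isUnit_det ha)

/-- The solution of `u = B u + w`. -/
theorem Sub.sol {B : Matrix V V ℝ} {a : ℝ} (hB : Sub B a) (ha : 0 < a) (w : V → ℝ) (v : V) :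
    ((1 - B)⁻¹ *ᵥ w) v = ∑ x, B v x * ((1 - B)⁻¹ *ᵥ w) x + w v := by
  have h1 : (1 - B) *ᵥ ((1 - B)⁻¹ *ᵥ w) = w := by
    rw [mulVec_mulVec, hB.mul_inv ha, one_mulVec]
  have h2 := congrFun h1 v
  rw [mulVec_sub_apply] at h2
  linarith

theorem Sub.inv_mulVec_nonneg {B : Matrix V V ℝ} {a : ℝ} (hB : Sub B a) (ha : 0 < a)
    {w : V → ℝ} (hw : ∀ v, 0 ≤ w v) (v : V) : 0 ≤ ((1 - B)⁻¹ *ᵥ w) v :=
  hB.min_principle ha hw (hB.sol ha w) v

theorem Sub.inv_nonneg {B : Matrix V V ℝ} {a : ℝ} (hB : Sub B a) (ha : 0 < a) (v x : V) :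
    0 ≤ (1 - B)⁻¹ v x := by
  have h := hB.inv_mulVec_nonneg ha (w := Pi.single x 1)
    (fun y => by
      by_cases h : y = x
      · subst h; simp
      · simp [h]) v
  rwa [mulVec_single_one] at h

theorem Sub.inv_row {B : Matrix V V ℝ} {a : ℝ} (hB : Sub B a) (ha : 0 < a) (v : V) :
    ∑ x, (1 - B)⁻¹ v x ≤ 1 / a := by
  have e : ∀ v, ((1 - B)⁻¹ *ᵥ fun _ => (1 : ℝ)) v = ∑ x, (1 - B)⁻¹ v x := by
    intro v
    rw [mulVec, dotProduct]
    simp
  have hs := hB.sol ha (fun _ => (1 : ℝ))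
  have h := hB.min_principle ha (u := fun v => 1 / a - ((1 - B)⁻¹ *ᵥ fun _ => (1 : ℝ)) v)
    (w := fun v => (1 - a - ∑ x, B v x) * (1 / a)) (fun v => by
      have := hB.row v
      have h2 : 0 < 1 / a := by positivity
      exact mul_nonneg (by linarith) h2.le) (fun v => by
      have h1 := hs v
      simp only [mul_sub, sum_sub_distrib, ← sum_mul]
      rw [h1]
      field_simp
      ring) v
  rw [e v] at h
  linarith

/-- Row sums of a product with a diagonal matrix. -/
theorem mul_diagonal_apply' (M : Matrix V V ℝ) (d : V → ℝ) (v x : V) :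
    (M * diagonal d) v x = M v x * d x := by
  rw [mul_diagonal]

theorem Sto.sub {M : Matrix V V ℝ} (hM : Sto M) {α : V → ℝ} {a : ℝ} (ha : ∀ x, a ≤ α x)
    (h1 : ∀ x, α x ≤ 1) : Sub (M * diagonal (fun x => 1 - α x)) a := by
  refine ⟨fun v x => ?_, fun v => ?_⟩
  · rw [mul_diagonal_apply']
    exact mul_nonneg (hM.nn v x) (by linarith [h1 x])
  · simp only [mul_diagonal_apply']
    calc ∑ x, M v x * (1 - α x) ≤ ∑ x, M v x * (1 - a) :=
          sum_le_sum (fun x _ => mul_le_mul_of_nonneg_left (by linarith [ha x]) (hM.nn v x))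
      _ = 1 - a := by rw [← sum_mul, hM.row, one_mul]

/-- Row sums of nonnegative products. -/
theorem sum_mul_row (A B : Matrix V V ℝ) (v : V) :
    ∑ x, (A * B) v x = ∑ y, A v y * ∑ x, B y x := by
  simp only [mul_apply]
  rw [sum_comm]
  simp only [mul_sum]

theorem Sto.stopLaw {M : Matrix V V ℝ} (hM : Sto M) {α : V → ℝ} {a : ℝ} (ha0 : 0 < a)
    (ha : ∀ x, a ≤ α x) (h1 : ∀ x, α x ≤ 1) : Sto (stopLaw M α) := by
  have hB := hM.sub ha h1
  refine ⟨fun v x => ?_, fun v => ?_⟩
  · unfold H974.stopLaw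
    rw [mul_apply]
    refine sum_nonneg (fun y _ => mul_nonneg (hB.inv_nonneg ha0 v y) ?_)
    rw [mul_diagonal_apply']
    exact mul_nonneg (hM.nn _ _) (ha0.le.trans (ha x))
  · unfold H974.stopLaw
    rw [sum_mul_row]
    have h2 : ∀ y, ∑ x, (M * diagonal α) y x =
        1 - ∑ x, (M * diagonal (fun x => 1 - α x)) y x := by
      intro y
      simp only [mul_diagonal_apply', mul_sub, mul_one, sum_sub_distrib, hM.row]
      ring
    simp only [h2]
    have h3 : ((1 - M * diagonal (fun x => 1 - α x))⁻¹ *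
        (1 - M * diagonal (fun x => 1 - α x))) *ᵥ (fun _ => (1 : ℝ)) = fun _ => 1 := by
      rw [hB.inv_mul ha0, one_mulVec]
    have h4 := congrFun h3 v
    rw [← mulVec_mulVec, mulVec, dotProduct] at h4
    refine Eq.trans (sum_congr rfl (fun y _ => ?_)) h4
    rw [mulVec_sub_apply]
    simp only [mul_one]

/-- Defining equation of the stopped law. -/
theorem stopLaw_eq {M : Matrix V V ℝ} (hM : Sto M) {α : V → ℝ} {a : ℝ} (ha0 : 0 < a)
    (ha : ∀ x, a ≤ α x) (h1 : ∀ x, α x ≤ 1) :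
    stopLaw M α = M * diagonal α + M * diagonal (fun x => 1 - α x) * stopLaw M α := by
  have hB := hM.sub ha h1
  have h : (1 - M * diagonal (fun x => 1 - α x)) * stopLaw M α = M * diagonal α := by
    unfold stopLaw
    rw [← mul_assoc, hB.mul_inv ha0, one_mul]
  rw [sub_mul, one_mul] at h
  rw [← h]
  abel

/-- Uniqueness for the defining equation. -/
theorem stopLaw_unique {M : Matrix V V ℝ} (hM : Sto M) {α : V → ℝ} {a : ℝ} (ha0 : 0 < a)
    (ha : ∀ x, a ≤ α x) (h1 : ∀ x, α x ≤ 1) {X : Matrix V V ℝ}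
    (hX : X = M * diagonal α + M * diagonal (fun x => 1 - α x) * X) : X = stopLaw M α := by
  have hB := hM.sub ha h1
  have h : (1 - M * diagonal (fun x => 1 - α x)) * X = M * diagonal α := by
    rw [sub_mul, one_mul]
    nth_rw 1 [hX]
    abel
  unfold stopLaw
  rw [← h, ← mul_assoc, hB.inv_mul ha0, one_mul]

/-- Thinning: stopping the stopped walk. -/
theorem stopLaw_thin {M : Matrix V V ℝ} (hM : Sto M) {α β : V → ℝ} {a b : ℝ} (ha0 : 0 < a)
    (hb0 : 0 < b) (ha : ∀ x, a ≤ α x) (ha1 : ∀ x, α x ≤ 1) (hb : ∀ x, b ≤ β x)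
    (hb1 : ∀ x, β x ≤ 1) :
    stopLaw (stopLaw M α) β = stopLaw M (fun x => α x * β x) := by
  have hN := hM.stopLaw ha0 ha ha1
  apply stopLaw_unique hM (mul_pos ha0 hb0)
    (fun x => mul_le_mul (ha x) (hb x) hb0.le (ha0.le.trans (ha x)))
    (fun x => mul_le_one₀ (ha1 x) (hb0.le.trans (hb x)) (hb1 x))
  set N := stopLaw M α with hNdef
  set X := stopLaw N β with hX
  have e1 := stopLaw_eq hM ha0 ha ha1
  have e2 := stopLaw_eq hN hb0 hb hb1
  rw [← hNdef] at e1
  rw [← hX] at e2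
  have d1 : diagonal α * diagonal β = diagonal (fun x => α x * β x) := diagonal_mul_diagonal _ _
  have d2 : diagonal α * diagonal (fun x => 1 - β x) =
      diagonal (fun x => α x * (1 - β x)) := diagonal_mul_diagonal _ _
  have d3 : diagonal (fun x => 1 - α x) + diagonal (fun x => α x * (1 - β x)) =
      diagonal (fun x => 1 - α x * β x) := by
    rw [diagonal_add]
    congr 1
    funext x
    ring
  -- `N` times the rest of `X`
  have e3 : X = N * (diagonal β + diagonal (fun x => 1 - β x) * X) := by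
    rw [mul_add, ← mul_assoc, ← e2]
  have e4 : X = M * diagonal α * (diagonal β + diagonal (fun x => 1 - β x) * X) +
      M * diagonal (fun x => 1 - α x) * (N * (diagonal β + diagonal (fun x => 1 - β x) * X)) := by
    rw [← mul_assoc (M * diagonal (fun x => 1 - α x)) N, ← add_mul, ← e1]
    exact e3
  rw [← e3] at e4
  nth_rw 1 [e4]
  rw [mul_add, ← mul_assoc (M * diagonal α), mul_assoc M (diagonal α) (diagonal β), d1,
    mul_assoc M (diagonal α) (diagonal fun x => 1 - β x), d2, add_assoc, ← add_mul, ← mul_add,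
    add_comm (diagonal fun x => α x * (1 - β x)), d3]

/-- Row sums of a product. -/
theorem row_mul_le {A D : Matrix V V ℝ} {c d : ℝ} (hA : ∀ v, ∑ x, |A v x| ≤ c)
    (hD : ∀ v, ∑ x, |D v x| ≤ d) (hd : 0 ≤ d) (v : V) : ∑ x, |(A * D) v x| ≤ c * d := by
  calc ∑ x, |(A * D) v x| ≤ ∑ x, ∑ y, |A v y| * |D y x| := by
        apply sum_le_sum
        intro x _
        rw [mul_apply]
        refine (abs_sum_le_sum_abs _ _).trans (le_of_eq ?_)
        exact sum_congr rfl (fun y _ => abs_mul _ _)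
    _ = ∑ y, |A v y| * ∑ x, |D y x| := by rw [sum_comm]; simp only [mul_sum]
    _ ≤ ∑ y, |A v y| * d := sum_le_sum (fun y _ => mul_le_mul_of_nonneg_left (hD y) (abs_nonneg _))
    _ = (∑ y, |A v y|) * d := by rw [sum_mul]
    _ ≤ c * d := mul_le_mul_of_nonneg_right (hA v) hd

/-- Stability of the stopped law. -/
theorem stopLaw_lipschitz {N N' : Matrix V V ℝ} (hN : Sto N) (hN' : Sto N') {β : V → ℝ}
    {b ε : ℝ} (hb0 : 0 < b) (hb : ∀ x, b ≤ β x) (hb1 : ∀ x, β x ≤ 1) (h : RDg N' N ε)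
    (hε : 0 ≤ ε) : RDg (stopLaw N' β) (stopLaw N β) (1 / b * ε) := by
  have hB' := hN'.sub hb hb1
  have hX := hN.stopLaw hb0 hb hb1
  set X := stopLaw N β with hXdef
  have e1 : X = N * (diagonal β + diagonal (fun x => 1 - β x) * X) := by
    rw [mul_add, ← mul_assoc]
    exact stopLaw_eq hN hb0 hb hb1
  -- the kernel which is applied after one step
  set Y := diagonal β + diagonal (fun x => 1 - β x) * X with hY
  have hYrow : ∀ y, ∑ x, |Y y x| ≤ 1 := by
    intro y
    have h2 : ∀ x, |Y y x| = Y y x := by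
      intro x
      apply abs_of_nonneg
      rw [hY, Matrix.add_apply, diagonal_mul]
      have h3 : 0 ≤ diagonal β y x := by
        rw [diagonal_apply]; split_ifs
        · exact hb0.le.trans (hb y)
        · exact le_rfl
      have h4 := mul_nonneg (show 0 ≤ 1 - β y by linarith [hb1 y]) (hX.nn y x)
      linarith
    simp only [h2]
    rw [hY]
    simp only [Matrix.add_apply, diagonal_mul, sum_add_distrib, ← mul_sum, hX.row]
    simp [diagonal_apply]
  have e2 : stopLaw N' β - X = (1 - N' * diagonal (fun x => 1 - β x))⁻¹ * ((N' - N) * Y) := by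
    have h3 : (1 - N' * diagonal (fun x => 1 - β x)) * (stopLaw N' β - X) = (N' - N) * Y := by
      have h4 : (1 - N' * diagonal (fun x => 1 - β x)) * stopLaw N' β = N' * diagonal β := by
        unfold stopLaw
        rw [← mul_assoc, hB'.mul_inv hb0, one_mul]
      rw [mul_sub, h4, sub_mul, one_mul, sub_mul (N') N Y, ← e1, hY, mul_add, ← mul_assoc]
      abel
    rw [← h3, ← mul_assoc, hB'.inv_mul hb0, one_mul]
  intro v
  have h5 : ∀ x, stopLaw N' β v x - X v x = ((1 - N' * diagonal (fun x => 1 - β x))⁻¹ *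
      ((N' - N) * Y)) v x := by
    intro x
    rw [← e2, Matrix.sub_apply]
  simp only [h5]
  apply row_mul_le
  · intro y
    have : ∀ x, |(1 - N' * diagonal (fun x => 1 - β x))⁻¹ y x| =
        (1 - N' * diagonal (fun x => 1 - β x))⁻¹ y x :=
      fun x => abs_of_nonneg (hB'.inv_nonneg hb0 y x)
    simp only [this]
    exact hB'.inv_row hb0 y
  · intro y
    have := row_mul_le (A := N' - N) (D := Y) (c := ε) (d := 1)
      (fun v => by simpa only [Matrix.sub_apply] using h v) hYrow zero_le_one y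
    simpa only [mul_one] using this
  · exact hε

end Vale.Agent.P313.H974
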