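import Vale.Agent.P313.H974.One

/-!
One stage: the exceptional sets contain the bad states and are small.
-/

namespace Vale.Agent.P313.H974

open Finset Matrix Vale.Agent.P313.BP

variable {p : Par} {S : Sem}

theorem hw_pos (hp : NumOK p) (d : SD) (v : Fin p.n) : 0 < hw p d v := by
  have h : (0 : ℝ) < p.q := by
    have := hp.q64
    exact_mod_cast (show 0 < p.q by omega)
  unfold hw
  positivity

theorem hw_ge_one (hp : NumOK p) (d : SD) (v : Fin p.n) : 1 ≤ hw p d v := by
  have h : (1 : ℝ) ≤ p.q := by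
    have := hp.q64
    exact_mod_cast (show 1 ≤ p.q by omega)
  unfold hw
  exact one_le_pow₀ h

theorem sum_hw {d : SD} (hd : Val p d) : ∑ v, hw p d v ≤ 2 * p.n := by
  have h := hd.mass
  unfold hw
  rw [Fin.sum_univ_eq_sum_range (fun v => (p.q : ℝ) ^ (d.c v - p.b))]
  exact_mod_cast h

/-- `h N` in terms of `tot`. -/
theorem hN_eq (d : SD) (x : Fin p.n) :
    ∑ v, hw p d v * Nm p d v x = (tot p d x : ℝ) / (p.q : ℝ) ^ p.b := by
  unfold tot hw Nm
  rw [← Fin.sum_univ_eq_sum_range (fun v => p.q ^ (d.c v - p.b) * d.A v x)]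
  push_cast
  rw [sum_div]
  apply sum_congr rfl
  intro v _
  ring

theorem Ft_eq (d : SD) (o : ℕ) (x : Fin p.n) :
    ∑ v, hw p d v * fm p (prodM p (fac0 p S d o) p.JF 0) v x = (Ft p S d o x : ℝ) / p.Th := by
  unfold Ft hw fm
  rw [← Fin.sum_univ_eq_sum_range
    (fun v => p.q ^ (d.c v - p.b) * prodM p (fac0 p S d o) p.JF 0 v x)]
  push_cast
  rw [sum_div]
  apply sum_congr rfl
  intro v _
  ring

/-- Outside of the first exceptional set `h N` and `F` are not large. -/
theorem big_Z1 (hp : NumOK p) (hS : SemOK p S) {d : SD} (hd : Val p d) {o : ℕ}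
    (ho : o ≤ p.D) : Big p S d (Z1 p S d o) := by
  have hT : (0 : ℝ) < p.Th := by exact_mod_cast hp.Thpos
  have hq : (0 : ℝ) < p.q := by
    have := hp.q64
    exact_mod_cast (show 0 < p.q by omega)
  intro x hx
  unfold Z1 at hx
  push Not at hx
  obtain ⟨h1, h2⟩ := hx
  have hc := hd.cb x x.isLt
  constructor
  · rw [hN_eq, div_le_iff₀ (by positivity)]
    have h3 : (tot p d x : ℝ) ≤ (p.q : ℝ) ^ (4 + d.c x) := by exact_mod_cast h1.le
    refine h3.trans (le_of_eq ?_)
    unfold hw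
    rw [← pow_add, ← pow_add]
    congr 1
    omega
  · have h3 : Fr p S d x ≤ (Ft p S d o x : ℝ) / p.Th := by
      rw [← Ft_eq]
      unfold Fr
      apply sum_le_sum
      intro v _
      exact mul_le_mul_of_nonneg_left (F0_ge hp hS d ho v x).2 (hw_pos hp d v).le
    refine h3.trans ?_
    rw [div_le_iff₀ hT]
    have h4 : (Ft p S d o x : ℝ) ≤ (p.q : ℝ) ^ (4 + (d.c x - p.b)) * p.Th := by
      exact_mod_cast h2.le
    refine h4.trans (le_of_eq ?_)
    unfold hw
    rw [← pow_add]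

/-- Row sums of the rounded product. -/
theorem F0_row (hp : NumOK p) (hS : SemOK p S) {d : SD} (hd : Val p d) {o : ℕ}
    (ho : o ≤ p.D) (v : Fin p.n) :
    ∑ x, fm p (prodM p (fac0 p S d o) p.JF 0) v x ≤ 2 ^ p.r + 1 := by
  have hrow : ∀ m, RowLe (gprod (Fex p S d (fun _ => False) 1) m) ((2 : ℝ) ^ m) := by
    intro m
    induction m with
    | zero => rw [pow_zero]; exact RowLe.one
    | succ m ih =>
      have h := (Fex_row hS hd (fun _ => False) zero_le_one le_rfl m).mul ih (by positivity)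
      rw [pow_succ, mul_comm]
      exact h
  have e : gprod (Fex p S d (fun _ => False) 1) p.r =
      gprod (fun a => 1 + Pm p S d (fun _ => False) a) p.r := by
    apply gprod_congr
    intro a ha
    unfold Fex
    rw [if_pos ha, one_pow, one_smul]
  have h1 := hrow p.r v
  rw [e] at h1
  have h2 := F0_close hp hS hd ho v
  have hδ : NumOK.δG p ≤ 1 := by
    have h3 := hp.δG_le
    have h4 := NumOK.δG_nonneg p
    have hn : (1 : ℝ) ≤ p.n := by exact_mod_cast hp.n1
    have h5 : (1 : ℝ) ≤ (p.n : ℝ) ^ 4 := one_le_pow₀ hn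
    nlinarith
  set X := fm p (prodM p (fac0 p S d o) p.JF 0) with hX
  set Y := gprod (fun a => 1 + Pm p S d (fun _ => False) a) p.r with hY
  calc ∑ x, X v x ≤ ∑ x, (|(X - Y) v x| + |Y v x|) := by
        apply sum_le_sum
        intro x _
        rw [Matrix.sub_apply]
        have h3 := le_abs_self (X v x - Y v x)
        have h4 := le_abs_self (Y v x)
        linarith
    _ ≤ 2 ^ p.r + 1 := by rw [sum_add_distrib]; linarith

open Classical in
/-- The exceptional set is small. -/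
theorem mass_Zst (hp : NumOK p) (hS : SemOK p S) {d : SD} (hd : Val p d) {o o' : ℕ}
    (ho : o ≤ p.D) (ho' : o' ≤ p.D) :
    p.q ^ 3 * ∑ x ∈ (univ : Finset (Fin p.n)).filter (fun x : Fin p.n => Zst p S d o o' (x : ℕ)),
      p.q ^ (d.c x - p.b) ≤ ∑ x : Fin p.n, p.q ^ (d.c x - p.b) := by
  have hT : (0 : ℝ) < p.Th := by exact_mod_cast hp.Thpos
  have hq : (0 : ℝ) < p.q := by
    have := hp.q64
    exact_mod_cast (show 0 < p.q by omega)
  have hh := fun v => (hw_pos hp d v).le
  set H := ∑ v, hw p d v with hH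
  have hH0 : 0 ≤ H := sum_nonneg (fun v _ => hh v)
  have hbig := big_Z1 hp hS hd ho
  have hloss := hS.lossmass d (Z1 p S d o) hd hbig
  rw [← hH] at hloss
  -- bound of the weight of each exceptional state
  have key : ∀ x : Fin p.n, Zst p S d o o' x → hw p d x * (p.q : ℝ) ^ 4 ≤
      ∑ v, hw p d v * Nm p d v x +
        ∑ v, hw p d v * fm p (prodM p (fac0 p S d o) p.JF 0) v x +
        (p.q : ℝ) ^ 11 * (hw p d x * S.loss d (Z1 p S d o) x) := by
    intro x hx
    have n1 : 0 ≤ ∑ v, hw p d v * Nm p d v x :=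
      sum_nonneg (fun v _ => mul_nonneg (hh v) (by unfold Nm; positivity))
    have n2 : 0 ≤ ∑ v, hw p d v * fm p (prodM p (fac0 p S d o) p.JF 0) v x :=
      sum_nonneg (fun v _ => mul_nonneg (hh v) (by unfold fm; positivity))
    have n3 : 0 ≤ (p.q : ℝ) ^ 11 * (hw p d x * S.loss d (Z1 p S d o) x) :=
      mul_nonneg (by positivity) (mul_nonneg (hh x) (hS.loss_nn _ _ _))
    have hc := hd.cb x x.isLt
    rcases hx with (h1 | h1) | h1
    · have h2 : hw p d x * (p.q : ℝ) ^ 4 ≤ ∑ v, hw p d v * Nm p d v x := by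
        rw [hN_eq, le_div_iff₀ (by positivity)]
        have h3 : (p.q : ℝ) ^ (4 + d.c x) ≤ (tot p d x : ℝ) := by exact_mod_cast h1
        refine le_trans (le_of_eq ?_) h3
        unfold hw
        rw [← pow_add, ← pow_add]
        congr 1
        omega
      linarith
    · have h2 : hw p d x * (p.q : ℝ) ^ 4 ≤
          ∑ v, hw p d v * fm p (prodM p (fac0 p S d o) p.JF 0) v x := by
        rw [Ft_eq, le_div_iff₀ hT]
        have h3 : (p.q : ℝ) ^ (4 + (d.c x - p.b)) * p.Th ≤ (Ft p S d o x : ℝ) := by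
          exact_mod_cast h1
        refine le_trans (le_of_eq ?_) h3
        unfold hw
        rw [← pow_add, add_comm]
      linarith
    · have h2 : 1 ≤ (p.q : ℝ) ^ 7 * S.loss d (Z1 p S d o) x := by
        have h3 := up_le (p := p) (x := S.loss d (Z1 p S d o) x)
          (by have := hp.D1; omega) hp.Thpos ho' (hS.loss_nn _ _ _)
        have h4 : 2 * (p.Th : ℝ) ≤ (lossR p S d o o' x : ℝ) * (p.q : ℝ) ^ 7 := by
          exact_mod_cast h1
        have h5 : 2 ≤ (lossR p S d o o' x : ℝ) / p.Th * (p.q : ℝ) ^ 7 := by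
          rw [div_mul_eq_mul_div, le_div_iff₀ hT]
          exact h4
        have h6 : (lossR p S d o o' x : ℝ) / p.Th ≤ S.loss d (Z1 p S d o) x + 2 / p.Th := h3
        have h7 : 2 / (p.Th : ℝ) * (p.q : ℝ) ^ 7 ≤ 1 := by
          rw [div_mul_eq_mul_div, div_le_one hT]
          exact_mod_cast hp.Thq
        have h8 := mul_le_mul_of_nonneg_right h6 (show 0 ≤ (p.q : ℝ) ^ 7 by positivity)
        linarith
      have h3 : hw p d x * (p.q : ℝ) ^ 4 ≤
          (p.q : ℝ) ^ 11 * (hw p d x * S.loss d (Z1 p S d o) x) := by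
        have h4 := mul_le_mul_of_nonneg_left h2 (show 0 ≤ hw p d x * (p.q : ℝ) ^ 4 by
          exact mul_nonneg (hh x) (by positivity))
        calc hw p d x * (p.q : ℝ) ^ 4 = hw p d x * (p.q : ℝ) ^ 4 * 1 := by ring
          _ ≤ hw p d x * (p.q : ℝ) ^ 4 * ((p.q : ℝ) ^ 7 * S.loss d (Z1 p S d o) x) := h4
          _ = _ := by ring
      linarith
  -- summation
  have hsum1 : ∑ x, ∑ v, hw p d v * Nm p d v x = H := by
    rw [sum_comm, hH]
    apply sum_congr rfl
    intro v _
    rw [← mul_sum]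
    have h1 : ∑ x, Nm p d v x = 1 := by
      unfold Nm
      rw [← sum_div, Fin.sum_univ_eq_sum_range (fun x => (d.A v x : ℝ)),
        div_eq_one_iff_eq (by positivity)]
      exact_mod_cast hd.row v v.isLt
    rw [h1, mul_one]
  have hsum2 : ∑ x, ∑ v, hw p d v * fm p (prodM p (fac0 p S d o) p.JF 0) v x ≤
      (2 ^ p.r + 1) * H := by
    rw [sum_comm, hH, mul_sum]
    apply sum_le_sum
    intro v _
    rw [← mul_sum, mul_comm]
    exact mul_le_mul_of_nonneg_right (F0_row hp hS hd ho v) (hh v)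
  have hsum3 : (p.q : ℝ) ^ 4 * ∑ x ∈ (univ : Finset (Fin p.n)).filter
      (fun x : Fin p.n => Zst p S d o o' (x : ℕ)), hw p d x ≤ H + (2 ^ p.r + 1) * H +
        (p.q : ℝ) ^ 11 * ∑ x, hw p d x * S.loss d (Z1 p S d o) x := by
    calc (p.q : ℝ) ^ 4 * ∑ x ∈ (univ : Finset (Fin p.n)).filter
          (fun x : Fin p.n => Zst p S d o o' (x : ℕ)), hw p d x
        = ∑ x ∈ (univ : Finset (Fin p.n)).filter (fun x : Fin p.n => Zst p S d o o' (x : ℕ)),
          hw p d x * (p.q : ℝ) ^ 4 := by rw [← sum_mul, mul_comm]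
      _ ≤ ∑ x ∈ (univ : Finset (Fin p.n)).filter (fun x : Fin p.n => Zst p S d o o' (x : ℕ)),
          (∑ v, hw p d v * Nm p d v x +
            ∑ v, hw p d v * fm p (prodM p (fac0 p S d o) p.JF 0) v x +
            (p.q : ℝ) ^ 11 * (hw p d x * S.loss d (Z1 p S d o) x)) :=
          sum_le_sum (fun x hx => key x (mem_filter.1 hx).2)
      _ ≤ ∑ x : Fin p.n, (∑ v, hw p d v * Nm p d v x +
            ∑ v, hw p d v * fm p (prodM p (fac0 p S d o) p.JF 0) v x +
            (p.q : ℝ) ^ 11 * (hw p d x * S.loss d (Z1 p S d o) x)) := by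
          apply sum_le_sum_of_subset_of_nonneg (filter_subset _ _)
          intro x _ _
          have n1 : 0 ≤ ∑ v, hw p d v * Nm p d v x :=
            sum_nonneg (fun v _ => mul_nonneg (hh v) (by unfold Nm; positivity))
          have n2 : 0 ≤ ∑ v, hw p d v * fm p (prodM p (fac0 p S d o) p.JF 0) v x :=
            sum_nonneg (fun v _ => mul_nonneg (hh v) (by unfold fm; positivity))
          have n3 : 0 ≤ (p.q : ℝ) ^ 11 * (hw p d x * S.loss d (Z1 p S d o) x) :=
            mul_nonneg (by positivity) (mul_nonneg (hh x) (hS.loss_nn _ _ _))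
          linarith
      _ ≤ _ := by
          rw [sum_add_distrib, sum_add_distrib, hsum1, ← mul_sum]
          linarith
  -- numbers
  have h2r : (2 : ℝ) ^ p.r ≤ 3 ^ p.r := pow_le_pow_left₀ (by norm_num) (by norm_num) _
  have hq3 : 2 * ((3 : ℝ) ^ p.r + 2) ≤ p.q := by exact_mod_cast hp.q3
  have hfin : (p.q : ℝ) * ((p.q : ℝ) ^ 3 * ∑ x ∈ (univ : Finset (Fin p.n)).filter
      (fun x : Fin p.n => Zst p S d o o' (x : ℕ)), hw p d x) ≤ (p.q : ℝ) * H := by
    have h1 : (p.q : ℝ) ^ 11 * ∑ x, hw p d x * S.loss d (Z1 p S d o) x ≤ (p.q : ℝ) * (H / 2) := by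
      have h2 := mul_le_mul_of_nonneg_left hloss (show 0 ≤ (p.q : ℝ) / 2 by positivity)
      calc _ = (p.q : ℝ) / 2 * (2 * (p.q : ℝ) ^ 10 *
            ∑ x, hw p d x * S.loss d (Z1 p S d o) x) := by ring
        _ ≤ (p.q : ℝ) / 2 * H := h2
        _ = _ := by ring
    have h3 : H + (2 ^ p.r + 1) * H ≤ (p.q : ℝ) * (H / 2) := by
      have h4 : (2 ^ p.r + 2) * H ≤ ((p.q : ℝ) / 2) * H :=
        mul_le_mul_of_nonneg_right (by linarith) hH0
      linarith
    calc _ = (p.q : ℝ) ^ 4 * ∑ x ∈ (univ : Finset (Fin p.n)).filter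
          (fun x : Fin p.n => Zst p S d o o' (x : ℕ)), hw p d x := by ring
      _ ≤ _ := hsum3
      _ ≤ _ := by linarith
  have hfin2 := le_of_mul_le_mul_left hfin hq
  rw [hH] at hfin2
  unfold hw at hfin2
  exact_mod_cast hfin2

/-- Outside of the set which is avoided the loss is small. -/
theorem loss_le (hp : NumOK p) {d : SD} {o o' : ℕ} {x : ℕ} (hx : ¬ Zs p S d o o' x) :
    S.loss d (Z1 p S d o) x ≤ 2 / (p.q : ℝ) ^ 7 := by
  have hT : (0 : ℝ) < p.Th := by exact_mod_cast hp.Thpos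
  have hq : (0 : ℝ) < p.q := by
    have := hp.q64
    exact_mod_cast (show 0 < p.q by omega)
  unfold Zs Zst at hx
  push Not at hx
  have h1 : (lossR p S d o o' x : ℝ) * (p.q : ℝ) ^ 7 ≤ 2 * p.Th := by exact_mod_cast hx.1.2.le
  have h2 : S.loss d (Z1 p S d o) x ≤ (lossR p S d o o' x : ℝ) / p.Th :=
    up_ge (by have := hp.D1; omega) hp.Thpos o'
  refine h2.trans ?_
  rw [div_le_div_iff₀ hT (by positivity)]
  exact h1

end Vale.Agent.P313.H974
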