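import Vale.Agent.P313.H974.Comp

/-!
Matrices as operators on a weighted `L²` space, and Newton iteration for an approximate inverse.
-/

namespace Vale.Agent.P313.H974

open Finset Matrix

set_option linter.unusedSectionVars false

variable {V : Type*} [Fintype V] [DecidableEq V]

/-- `E` has norm at most `ρ` on the space of functions with weight `h`. -/
def IsBd (h : V → ℝ) (E : Matrix V V ℝ) (ρ : ℝ) : Prop :=
  ∀ f : V → ℝ, ∑ w, h w * ((E *ᵥ f) w) ^ 2 ≤ ρ ^ 2 * ∑ w, h w * (f w) ^ 2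

theorem wsum_nonneg {h : V → ℝ} (hh : ∀ w, 0 ≤ h w) (f : V → ℝ) :
    0 ≤ ∑ w, h w * (f w) ^ 2 := sum_nonneg (fun w _ => mul_nonneg (hh w) (sq_nonneg _))

/-- Cauchy-Schwarz with weights. -/
theorem wsum_mul_sq_le {h : V → ℝ} (hh : ∀ w, 0 ≤ h w) (f g : V → ℝ) :
    (∑ w, h w * (f w * g w)) ^ 2 ≤ (∑ w, h w * (f w) ^ 2) * ∑ w, h w * (g w) ^ 2 := by
  have h1 := sum_mul_sq_le_sq_mul_sq univ (fun w => Real.sqrt (h w) * f w)
    (fun w => Real.sqrt (h w) * g w)
  have e1 : ∀ w, Real.sqrt (h w) * f w * (Real.sqrt (h w) * g w) = h w * (f w * g w) := by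
    intro w
    have := Real.mul_self_sqrt (hh w)
    calc _ = (Real.sqrt (h w) * Real.sqrt (h w)) * (f w * g w) := by ring
      _ = _ := by rw [this]
  have e2 : ∀ (f : V → ℝ) (w : V), (Real.sqrt (h w) * f w) ^ 2 = h w * (f w) ^ 2 := by
    intro f w
    rw [mul_pow, Real.sq_sqrt (hh w)]
  simp only [e1, e2] at h1
  exact h1

namespace IsBd

variable {h : V → ℝ} {A B : Matrix V V ℝ} {a b : ℝ}

theorem mono (hh : ∀ w, 0 ≤ h w) (ha : 0 ≤ a) (hab : a ≤ b) (hA : IsBd h A a) : IsBd h A b := by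
  intro f
  refine (hA f).trans ?_
  exact mul_le_mul_of_nonneg_right (pow_le_pow_left₀ ha hab 2) (wsum_nonneg hh f)

theorem mul (hA : IsBd h A a) (hB : IsBd h B b) : IsBd h (A * B) (a * b) := by
  intro f
  rw [← mulVec_mulVec]
  refine (hA _).trans ?_
  rw [mul_pow, mul_assoc]
  exact mul_le_mul_of_nonneg_left (hB f) (sq_nonneg a)

theorem add (hh : ∀ w, 0 ≤ h w) (ha : 0 ≤ a) (hb : 0 ≤ b) (hA : IsBd h A a) (hB : IsBd h B b) :
    IsBd h (A + B) (a + b) := by
  intro f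
  set F := ∑ w, h w * (f w) ^ 2 with hF
  have hF0 : 0 ≤ F := wsum_nonneg hh f
  have h1 := hA f
  have h2 := hB f
  rw [← hF] at h1 h2
  set X := ∑ w, h w * ((A *ᵥ f) w) ^ 2 with hX
  set Y := ∑ w, h w * ((B *ᵥ f) w) ^ 2 with hY
  have hX0 : 0 ≤ X := wsum_nonneg hh _
  have hY0 : 0 ≤ Y := wsum_nonneg hh _
  have h3 := wsum_mul_sq_le hh (A *ᵥ f) (B *ᵥ f)
  rw [← hX, ← hY] at h3
  set C := ∑ w, h w * ((A *ᵥ f) w * (B *ᵥ f) w) with hC
  have h4 : ∑ w, h w * (((A + B) *ᵥ f) w) ^ 2 = X + 2 * C + Y := by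
    rw [hX, hY, hC, mul_sum, ← sum_add_distrib, ← sum_add_distrib]
    apply sum_congr rfl
    intro w _
    rw [add_mulVec, Pi.add_apply]
    ring
  have h5 : C ^ 2 ≤ (a * b * F) ^ 2 := by
    calc C ^ 2 ≤ X * Y := h3
      _ ≤ (a ^ 2 * F) * (b ^ 2 * F) := mul_le_mul h1 h2 hY0 (by positivity)
      _ = (a * b * F) ^ 2 := by ring
  have h6 : C ≤ a * b * F := by
    have := abs_le_of_sq_le_sq' h5 (by positivity)
    exact this.2
  rw [h4]
  nlinarith

theorem neg (hA : IsBd h A a) : IsBd h (-A) a := by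
  intro f
  have e : ∀ w, ((-A) *ᵥ f) w ^ 2 = ((A *ᵥ f) w) ^ 2 := by
    intro w
    rw [neg_mulVec, Pi.neg_apply, neg_sq]
  simp only [e]
  exact hA f

theorem sub (hh : ∀ w, 0 ≤ h w) (ha : 0 ≤ a) (hb : 0 ≤ b) (hA : IsBd h A a) (hB : IsBd h B b) :
    IsBd h (A - B) (a + b) := by
  rw [sub_eq_add_neg]
  exact add hh ha hb hA hB.neg

theorem one : IsBd h 1 1 := by
  intro f
  simp

theorem pow (hA : IsBd h A a) : ∀ m : ℕ, IsBd h (A ^ m) (a ^ m) := by
  intro m
  induction m with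
  | zero => simpa using one
  | succ m ih =>
    rw [pow_succ, pow_succ]
    exact ih.mul hA

/-- Values of the image of a bounded function. -/
theorem apply_le (hh : ∀ w, 1 ≤ h w) {H : ℝ} (hH : ∑ w, h w ≤ H) (ha : 0 ≤ a) (hA : IsBd h A a)
    {f : V → ℝ} {c : ℝ} (hf : ∀ w, |f w| ≤ c) (v : V) :
    |(A *ᵥ f) v| ≤ a * Real.sqrt H * c := by
  have hh0 : ∀ w, 0 ≤ h w := fun w => zero_le_one.trans (hh w)
  have hc : 0 ≤ c := (abs_nonneg _).trans (hf v)
  have hH0 : 0 ≤ H := (sum_nonneg (fun w _ => hh0 w)).trans hH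
  have h1 : ((A *ᵥ f) v) ^ 2 ≤ ∑ w, h w * ((A *ᵥ f) w) ^ 2 := by
    have h2 : h v * ((A *ᵥ f) v) ^ 2 ≤ ∑ w, h w * ((A *ᵥ f) w) ^ 2 :=
      single_le_sum (f := fun w => h w * ((A *ᵥ f) w) ^ 2)
        (fun w _ => mul_nonneg (hh0 w) (sq_nonneg _)) (mem_univ v)
    refine le_trans ?_ h2
    have := mul_le_mul_of_nonneg_right (hh v) (sq_nonneg ((A *ᵥ f) v))
    linarith
  have h3 : ∑ w, h w * (f w) ^ 2 ≤ H * c ^ 2 := by
    calc ∑ w, h w * (f w) ^ 2 ≤ ∑ w, h w * c ^ 2 := by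
          apply sum_le_sum
          intro w _
          apply mul_le_mul_of_nonneg_left _ (hh0 w)
          rw [← sq_abs]
          exact pow_le_pow_left₀ (abs_nonneg _) (hf w) 2
      _ = (∑ w, h w) * c ^ 2 := by rw [sum_mul]
      _ ≤ H * c ^ 2 := mul_le_mul_of_nonneg_right hH (sq_nonneg c)
  have h4 : ((A *ᵥ f) v) ^ 2 ≤ (a * Real.sqrt H * c) ^ 2 := by
    rw [mul_pow, mul_pow, Real.sq_sqrt hH0, mul_assoc]
    exact h1.trans ((hA f).trans (mul_le_mul_of_nonneg_left h3 (sq_nonneg a)))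
  exact abs_le_of_sq_le_sq h4 (by positivity)

/-- Matrices with small entries. -/
theorem of_entry (hh : ∀ w, 1 ≤ h w) {H : ℝ} (hH : ∑ w, h w ≤ H) {ε : ℝ}
    (hA : ∀ v x, |A v x| ≤ ε) : IsBd h A (ε * Real.sqrt (Fintype.card V * H)) := by
  have hh0 : ∀ w, 0 ≤ h w := fun w => zero_le_one.trans (hh w)
  have hH0 : 0 ≤ H := (sum_nonneg (fun w _ => hh0 w)).trans hH
  intro f
  set F := ∑ w, h w * (f w) ^ 2 with hF
  have hF0 : 0 ≤ F := wsum_nonneg hh0 f
  have h1 : ∑ x, (f x) ^ 2 ≤ F := by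
    rw [hF]
    apply sum_le_sum
    intro x _
    have := mul_le_mul_of_nonneg_right (hh x) (sq_nonneg (f x))
    linarith
  have h2 : ∀ v, ((A *ᵥ f) v) ^ 2 ≤ ε ^ 2 * Fintype.card V * F := by
    intro v
    have h3 := sum_mul_sq_le_sq_mul_sq univ (fun x => A v x) f
    have h4 : ∑ x, (A v x) ^ 2 ≤ Fintype.card V * ε ^ 2 := by
      calc ∑ x, (A v x) ^ 2 ≤ ∑ _x : V, ε ^ 2 := by
            apply sum_le_sum
            intro x _
            rw [← sq_abs]
            exact pow_le_pow_left₀ (abs_nonneg _) (hA v x) 2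
        _ = Fintype.card V * ε ^ 2 := by rw [sum_const, card_univ, nsmul_eq_mul]
    calc ((A *ᵥ f) v) ^ 2 = (∑ x, A v x * f x) ^ 2 := rfl
      _ ≤ (∑ x, (A v x) ^ 2) * ∑ x, (f x) ^ 2 := h3
      _ ≤ (Fintype.card V * ε ^ 2) * F :=
          mul_le_mul h4 h1 (sum_nonneg (fun _ _ => sq_nonneg _)) (by positivity)
      _ = ε ^ 2 * Fintype.card V * F := by ring
  calc ∑ w, h w * ((A *ᵥ f) w) ^ 2 ≤ ∑ w, h w * (ε ^ 2 * Fintype.card V * F) :=
        sum_le_sum (fun w _ => mul_le_mul_of_nonneg_left (h2 w) (hh0 w))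
    _ = (∑ w, h w) * (ε ^ 2 * Fintype.card V * F) := by rw [sum_mul]
    _ ≤ H * (ε ^ 2 * Fintype.card V * F) := mul_le_mul_of_nonneg_right hH (by positivity)
    _ = (ε * Real.sqrt (Fintype.card V * H)) ^ 2 * F := by
        rw [mul_pow, Real.sq_sqrt (by positivity)]
        ring

end IsBd

/-- The approximate inverse and the stopped law. -/
theorem precond_apply {N G : Matrix V V ℝ} (hN : Sto N) {β : V → ℝ} {b : ℝ} (hb0 : 0 < b)
    (hb : ∀ x, b ≤ β x) (hb1 : ∀ x, β x ≤ 1) :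
    G * (N * diagonal β) = stopLaw N β -
      (1 - G * (1 - N * diagonal (fun x => 1 - β x))) * stopLaw N β := by
  have hB := hN.sub hb hb1
  have h4 : (1 - N * diagonal (fun x => 1 - β x)) * stopLaw N β = N * diagonal β := by
    unfold stopLaw
    rw [← mul_assoc, hB.mul_inv hb0, one_mul]
  rw [sub_mul, one_mul, mul_assoc, h4]
  abel

/-- Entries of the approximation given by a good preconditioner. -/
theorem precond_entry {N G : Matrix V V ℝ} (hN : Sto N) {β : V → ℝ} {b : ℝ} (hb0 : 0 < b)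
    (hb : ∀ x, b ≤ β x) (hb1 : ∀ x, β x ≤ 1) {h : V → ℝ} (hh : ∀ w, 1 ≤ h w) {H : ℝ}
    (hH : ∑ w, h w ≤ H) {ρ : ℝ} (hρ : 0 ≤ ρ)
    (hE : IsBd h (1 - G * (1 - N * diagonal (fun x => 1 - β x))) ρ) (v x : V) :
    |(G * (N * diagonal β)) v x - stopLaw N β v x| ≤ ρ * Real.sqrt H := by
  have hX := hN.stopLaw hb0 hb hb1
  rw [precond_apply hN hb0 hb hb1, Matrix.sub_apply, mul_apply]
  have h1 := hE.apply_le hh hH hρ (f := fun y => stopLaw N β y x) (c := 1) (fun y => by
    rw [abs_of_nonneg (hX.nn y x)]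
    have := hX.row y
    rw [← this]
    exact single_le_sum (f := fun z => stopLaw N β y z) (fun z _ => hX.nn y z) (mem_univ x)) v
  rw [mul_one] at h1
  rw [sub_right_comm, sub_self, zero_sub, abs_neg]
  exact h1

/-- Entries of a good preconditioner. -/
theorem precond_size {N G : Matrix V V ℝ} (hN : Sto N) {β : V → ℝ} {b : ℝ} (hb0 : 0 < b)
    (hb : ∀ x, b ≤ β x) (hb1 : ∀ x, β x ≤ 1) {h : V → ℝ} (hh : ∀ w, 1 ≤ h w) {H : ℝ}
    (hH : ∑ w, h w ≤ H) {ρ : ℝ} (hρ : 0 ≤ ρ)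
    (hE : IsBd h (1 - G * (1 - N * diagonal (fun x => 1 - β x))) ρ) (v x : V) :
    |G v x| ≤ (1 + ρ * Real.sqrt H) * (1 / b) := by
  have hB := hN.sub hb hb1
  set L := 1 - N * diagonal (fun x => 1 - β x) with hL
  have hinv : ∀ y x, |L⁻¹ y x| ≤ 1 / b := by
    intro y x
    rw [abs_of_nonneg (hB.inv_nonneg hb0 y x)]
    exact (single_le_sum (f := fun z => L⁻¹ y z) (fun z _ => hB.inv_nonneg hb0 y z)
      (mem_univ x)).trans (hB.inv_row hb0 y)
  have h1 : G = L⁻¹ - (1 - G * L) * L⁻¹ := by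
    rw [sub_mul, one_mul, mul_assoc, hB.mul_inv hb0, mul_one]
    abel
  have h2 := hE.apply_le hh hH hρ (f := fun y => L⁻¹ y x) (c := 1 / b) (fun y => hinv y x) v
  have h3 : G v x = L⁻¹ v x - ((1 - G * L) * L⁻¹) v x := by
    nth_rw 1 [h1]
    rw [Matrix.sub_apply]
  rw [h3, mul_apply]
  refine (abs_sub _ _).trans ?_
  have h4 := hinv v x
  have h5 : |∑ j, (1 - G * L) v j * L⁻¹ j x| ≤ ρ * Real.sqrt H * (1 / b) := h2
  linarith

/-- Newton iteration with entrywise errors. -/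
theorem newton {N : Matrix V V ℝ} (hN : Sto N) {β : V → ℝ} {b : ℝ} (hb0 : 0 < b)
    (hb : ∀ x, b ≤ β x) (hb1 : ∀ x, β x ≤ 1) {h : V → ℝ} (hh : ∀ w, 1 ≤ h w) {H : ℝ}
    (hH : ∑ w, h w ≤ H) {G : ℕ → Matrix V V ℝ} {J : ℕ} {x η g : ℝ} (hx0 : 0 ≤ x) (hx : x ≤ 1 / 8)
    (hη : 0 ≤ η) (hg : (1 + Real.sqrt H) * (1 / b) ≤ g)
    (hθ : Fintype.card V * ((Fintype.card V * g + 1) * η) * Real.sqrt (Fintype.card V * H)
      ≤ 1 / 8)
    (h0 : IsBd h (1 - G 0 * (1 - N * diagonal (fun x => 1 - β x))) x)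
    (hstep : ∀ j < J, ∃ R1 R2 : Matrix V V ℝ, (∀ v x, |R1 v x| ≤ η) ∧ (∀ v x, |R2 v x| ≤ η) ∧
      G (j + 1) = (2 - (G j * (1 - N * diagonal (fun x => 1 - β x)) + R1)) * G j + R2) :
    ∀ j ≤ J, IsBd h (1 - G j * (1 - N * diagonal (fun x => 1 - β x)))
      (x ^ 2 ^ j + 2 * (Fintype.card V * ((Fintype.card V * g + 1) * η) *
        Real.sqrt (Fintype.card V * H))) := by
  set L := 1 - N * diagonal (fun x => 1 - β x) with hL
  set θ := Fintype.card V * ((Fintype.card V * g + 1) * η) * Real.sqrt (Fintype.card V * H)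
    with hθdef
  have hh0 : ∀ w, 0 ≤ h w := fun w => zero_le_one.trans (hh w)
  have hH0 : 0 ≤ H := (sum_nonneg (fun w _ => hh0 w)).trans hH
  have hg0 : 0 ≤ g := le_trans (by positivity) hg
  have hθ0 : 0 ≤ θ := by positivity
  have hLent : ∀ v x, |L v x| ≤ 1 := by
    intro v x
    rw [hL, Matrix.sub_apply, mul_diagonal_apply', one_apply]
    have h1 := hN.nn v x
    have h2 : N v x ≤ 1 := by
      rw [← hN.row v]
      exact single_le_sum (f := fun z => N v z) (fun z _ => hN.nn v z) (mem_univ x)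
    have h3 : 0 ≤ 1 - β x := by linarith [hb1 x]
    have h4 : 1 - β x ≤ 1 := by linarith [hb x]
    have h5 : 0 ≤ N v x * (1 - β x) := mul_nonneg h1 h3
    have h6 : N v x * (1 - β x) ≤ 1 := mul_le_one₀ h2 h3 h4
    split_ifs
    · rw [abs_le]; constructor <;> linarith
    · rw [abs_le]; constructor <;> linarith
  intro j
  induction j with
  | zero =>
    intro _
    rw [pow_zero, pow_one]
    exact h0.mono hh0 hx0 (by linarith)
  | succ j ih =>
    intro hj
    have h1 := ih (by omega)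
    obtain ⟨R1, R2, hR1, hR2, hG⟩ := hstep j (by omega)
    have hxj : x ^ 2 ^ j ≤ 1 / 8 := by
      have h2 : x ^ 2 ^ j ≤ x ^ 1 :=
        pow_le_pow_of_le_one hx0 (by linarith) (Nat.one_le_two_pow)
      rw [pow_one] at h2
      linarith
    have hxj0 : 0 ≤ x ^ 2 ^ j := pow_nonneg hx0 _
    have hGe : ∀ v x, |G j v x| ≤ g := by
      intro v y
      refine (precond_size hN hb0 hb hb1 hh hH (by positivity) h1 v y).trans (le_trans ?_ hg)
      apply mul_le_mul_of_nonneg_right _ (by positivity)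
      have h3 : (x ^ 2 ^ j + 2 * θ) * Real.sqrt H ≤ 1 * Real.sqrt H :=
        mul_le_mul_of_nonneg_right (by linarith) (Real.sqrt_nonneg _)
      linarith
    -- the new error
    have e1 : 1 - G (j + 1) * L = (1 - G j * L) * (1 - G j * L) + (R1 * G j - R2) * L := by
      rw [hG]
      have h2 : (2 : Matrix V V ℝ) = 1 + 1 := by norm_num
      rw [h2]
      noncomm_ring
    have e2 : IsBd h ((R1 * G j - R2) * L) θ := by
      have h3 : ∀ v x, |((R1 * G j - R2) * L) v x| ≤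
          Fintype.card V * ((Fintype.card V * g + 1) * η) := by
        intro v y
        rw [mul_apply]
        refine (abs_sum_le_sum_abs _ _).trans ?_
        calc ∑ z, |(R1 * G j - R2) v z * L z y| ≤ ∑ _z : V, (Fintype.card V * g + 1) * η := by
              apply sum_le_sum
              intro z _
              rw [abs_mul]
              have h4 : |(R1 * G j - R2) v z| ≤ (Fintype.card V * g + 1) * η := by
                rw [Matrix.sub_apply]
                refine (abs_sub _ _).trans ?_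
                have h5 : |(R1 * G j) v z| ≤ Fintype.card V * g * η := by
                  rw [mul_apply]
                  refine (abs_sum_le_sum_abs _ _).trans ?_
                  calc ∑ y, |R1 v y * G j y z| ≤ ∑ _y : V, η * g := by
                        apply sum_le_sum
                        intro y _
                        rw [abs_mul]
                        exact mul_le_mul (hR1 v y) (hGe y z) (abs_nonneg _) hη
                    _ = Fintype.card V * g * η := by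
                        rw [sum_const, card_univ, nsmul_eq_mul]; ring
                have h6 := hR2 v z
                linarith
              calc |(R1 * G j - R2) v z| * |L z y| ≤ |(R1 * G j - R2) v z| * 1 :=
                    mul_le_mul_of_nonneg_left (hLent z y) (abs_nonneg _)
                _ ≤ _ := by rw [mul_one]; exact h4
          _ = _ := by rw [sum_const, card_univ, nsmul_eq_mul]
      exact IsBd.of_entry hh hH h3
    have e3 := (h1.mul h1).add hh0 (by positivity) hθ0 e2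
    rw [e1]
    refine e3.mono hh0 (by positivity) ?_
    have e4 : x ^ 2 ^ (j + 1) = x ^ 2 ^ j * x ^ 2 ^ j := by
      rw [pow_succ 2 j, pow_mul, sq]
    rw [e4]
    nlinarith

end Vale.Agent.P313.H974
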