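import Vale.Agent.P313.H974.Exc

/-!
One stage: Newton's iteration with integers, and the next stage datum.
-/

namespace Vale.Agent.P313.H974

open Finset Matrix Vale.Agent.P313.BP

variable {p : Par} {S : Sem}

theorem int_floor_lo {m : ℤ} {t : ℤ} (ht : 0 < t) : ((m / t : ℤ) : ℝ) ≤ (m : ℝ) / t := by
  have ht' : (0 : ℝ) < t := by exact_mod_cast ht
  rw [le_div_iff₀ ht']
  exact_mod_cast Int.ediv_mul_le m ht.ne'

theorem int_floor_hi {m : ℤ} {t : ℤ} (ht : 0 < t) : (m : ℝ) / t ≤ ((m / t : ℤ) : ℝ) + 1 := by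
  have ht' : (0 : ℝ) < t := by exact_mod_cast ht
  rw [div_le_iff₀ ht']
  exact_mod_cast (Int.lt_ediv_add_one_mul_self m ht).le

/-- The matrix of a function with fixed point integer values. -/
noncomputable def fz (p : Par) (f : ℕ → ℕ → ℤ) : Matrix (Fin p.n) (Fin p.n) ℝ :=
  fun v x => (f v x : ℝ) / p.Th

theorem beta_ge (Z : ℕ → Prop) (x : Fin p.n) : (1 / 2 : ℝ) ^ p.rk ≤ bet p Z x := by
  unfold bet
  split_ifs
  · exact pow_le_one₀ (by norm_num) (by norm_num)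
  · exact le_rfl

theorem beta_le (Z : ℕ → Prop) (x : Fin p.n) : bet p Z x ≤ 1 := by
  unfold bet
  split_ifs
  · exact le_rfl
  · exact pow_le_one₀ (by norm_num) (by norm_num)

theorem Sto_Nm (hp : NumOK p) {d : SD} (hd : Val p d) : Sto (Nm p d) := by
  have hq : (0 : ℝ) < p.q := by
    have := hp.q64
    exact_mod_cast (show 0 < p.q by omega)
  refine ⟨fun v x => by unfold Nm; positivity, fun v => ?_⟩
  unfold Nm
  rw [← sum_div, Fin.sum_univ_eq_sum_range (fun x => (d.A v x : ℝ)),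
    div_eq_one_iff_eq (by positivity)]
  exact_mod_cast hd.row v v.isLt

theorem Lm_eq (hp : NumOK p) (d : SD) (o o' : ℕ) :
    fz p (Lm p S d o o') = Lr p d (Zs p S d o o') := by
  have hT : (0 : ℝ) < p.Th := by exact_mod_cast hp.Thpos
  have hq : (0 : ℝ) < p.q := by
    have := hp.q64
    exact_mod_cast (show 0 < p.q by omega)
  have hT1 : (0 : ℝ) < p.Th1 := by exact_mod_cast hp.Th1pos
  have hTh := Th_eq p
  ext v x
  unfold Lr
  rw [Matrix.sub_apply, mul_diagonal_apply', one_apply]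
  unfold fz Lm bet Nm
  push_cast
  rw [sub_div]
  congr 1
  · by_cases h : v = x
    · subst h
      simp [hT.ne']
    · rw [if_neg h, if_neg (fun h2 => h (Fin.ext h2))]
      simp
  · by_cases h : Zs p S d o o' x
    · simp [h]
    · rw [if_neg h, if_neg h, hTh]
      have h2 : (2 : ℝ) ^ p.rk ≠ 0 := by positivity
      rw [one_div, inv_pow]
      field_simp

/-- One Newton step. -/
theorem newton_step (hp : NumOK p) (L G : ℕ → ℕ → ℤ) : ∃ R1 R2 : Matrix (Fin p.n) (Fin p.n) ℝ,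
    (∀ v x, |R1 v x| ≤ 1 / p.Th) ∧ (∀ v x, |R2 v x| ≤ 1 / p.Th) ∧
    fz p (Hn p L G) = 2 - (fz p G * fz p L + R1) ∧
    fz p (Gn p L G) = (2 - (fz p G * fz p L + R1)) * fz p G + R2 := by
  have hT : (0 : ℝ) < p.Th := by exact_mod_cast hp.Thpos
  have hTz : (0 : ℤ) < p.Th := by exact_mod_cast hp.Thpos
  have key : ∀ (A B : ℕ → ℕ → ℤ) (v x : Fin p.n),
      (((∑ u ∈ range p.n, A v u * B u x) / (p.Th : ℤ) : ℤ) : ℝ) / p.Th ≤
        (fz p A * fz p B) v x ∧
      (fz p A * fz p B) v x ≤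
        (((∑ u ∈ range p.n, A v u * B u x) / (p.Th : ℤ) : ℤ) : ℝ) / p.Th + 1 / p.Th := by
    intro A B v x
    set m := ∑ u ∈ range p.n, A v u * B u x with hm
    have e1 : (fz p A * fz p B) v x = ((m : ℝ) / p.Th) / p.Th := by
      rw [mul_apply, hm, ← Fin.sum_univ_eq_sum_range (fun u => A v u * B u x)]
      push_cast
      rw [sum_div, sum_div]
      apply sum_congr rfl
      intro y _
      unfold fz
      field_simp
    have h1 := int_floor_lo (m := m) hTz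
    have h2 := int_floor_hi (m := m) hTz
    push_cast at h1 h2
    rw [e1]
    constructor
    · exact div_le_div_of_nonneg_right h1 hT.le
    · rw [← add_div]
      exact div_le_div_of_nonneg_right h2 hT.le
  refine ⟨2 - fz p G * fz p L - fz p (Hn p L G), fz p (Gn p L G) - fz p (Hn p L G) * fz p G,
    fun v x => ?_, fun v x => ?_, by abel, ?_⟩
  · obtain ⟨h1, h2⟩ := key G L v x
    have e : fz p (Hn p L G) v x = (2 : Matrix (Fin p.n) (Fin p.n) ℝ) v x -
        (((∑ u ∈ range p.n, G v u * L u x) / (p.Th : ℤ) : ℤ) : ℝ) / p.Th := by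
      have h3 : (2 : Matrix (Fin p.n) (Fin p.n) ℝ) v x = if v = x then 2 else 0 := by
        have : (2 : Matrix (Fin p.n) (Fin p.n) ℝ) = 1 + 1 := by norm_num
        rw [this, Matrix.add_apply, one_apply]
        split_ifs <;> norm_num
      rw [h3]
      unfold fz Hn
      push_cast
      rw [sub_div]
      congr 1
      by_cases h : v = x
      · subst h
        simp only [if_true]
        field_simp
      · rw [if_neg h, if_neg (fun h2 => h (Fin.ext h2))]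
        simp
    rw [Matrix.sub_apply, Matrix.sub_apply, e, abs_le]
    constructor <;> linarith
  · obtain ⟨h1, h2⟩ := key (Hn p L G) G v x
    rw [Matrix.sub_apply]
    have e : fz p (Gn p L G) v x =
      (((∑ u ∈ range p.n, Hn p L G v u * G u x) / (p.Th : ℤ) : ℤ) : ℝ) / p.Th := by
      unfold fz Gn
      rfl
    rw [e, abs_le]
    constructor <;> linarith
  · have e : 2 - (fz p G * fz p L + (2 - fz p G * fz p L - fz p (Hn p L G))) =
        fz p (Hn p L G) := by abel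
    rw [e]
    abel

theorem Lr_row (hp : NumOK p) {d : SD} (hd : Val p d) (Z : ℕ → Prop) : RowLe (Lr p d Z) 2 := by
  have hN := Sto_Nm hp hd
  have h1 : RowLe (Nm p d * diagonal (fun x => 1 - bet p Z x)) 1 := by
    intro v
    calc ∑ x, |(Nm p d * diagonal (fun x => 1 - bet p Z x)) v x| ≤ ∑ x, Nm p d v x := by
          apply sum_le_sum
          intro x _
          rw [mul_diagonal_apply']
          have h2 : 0 ≤ 1 - bet p Z x := by linarith [beta_le (p := p) Z x]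
          have h3 : 1 - bet p Z x ≤ 1 := by
            have := beta_ge (p := p) Z x
            have h4 : (0 : ℝ) ≤ (1 / 2) ^ p.rk := by positivity
            linarith
          rw [abs_of_nonneg (mul_nonneg (hN.nn v x) h2)]
          exact mul_le_of_le_one_right (hN.nn v x) h3
      _ = 1 := hN.row v
      _ ≤ 1 := le_rfl
  intro v
  have h2 := (RowLe.one (V := Fin p.n)).add h1 v
  refine le_trans ?_ (h2.trans (by norm_num))
  unfold Lr
  calc ∑ x, |(1 - Nm p d * diagonal (fun x => 1 - bet p Z x)) v x|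
      ≤ ∑ x, |(1 : Matrix (Fin p.n) (Fin p.n) ℝ) v x| +
        ∑ x, |(Nm p d * diagonal (fun x => 1 - bet p Z x)) v x| := by
        rw [← sum_add_distrib]
        apply sum_le_sum
        intro x _
        rw [Matrix.sub_apply]
        exact abs_sub _ _
    _ = ∑ x, |(1 + Nm p d * diagonal (fun x => 1 - bet p Z x)) v x| := by
        rw [← sum_add_distrib]
        apply sum_congr rfl
        intro x _
        have h3 : (0 : ℝ) ≤ (1 : Matrix (Fin p.n) (Fin p.n) ℝ) v x := by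
          rw [one_apply]; split_ifs <;> norm_num
        have h4 : 0 ≤ (Nm p d * diagonal (fun x => 1 - bet p Z x)) v x := by
          rw [mul_diagonal_apply']
          exact mul_nonneg (hN.nn v x) (by linarith [beta_le (p := p) Z x])
        rw [Matrix.add_apply, abs_of_nonneg h3, abs_of_nonneg h4,
          abs_of_nonneg (add_nonneg h3 h4)]

theorem sqrt_le_2n (hp : NumOK p) : Real.sqrt (2 * p.n) ≤ 2 * p.n := by
  have hn : (1 : ℝ) ≤ p.n := by exact_mod_cast hp.n1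
  rw [Real.sqrt_le_left (by positivity)]
  nlinarith

theorem sqrt_le_2n' (_hp : NumOK p) : Real.sqrt (p.n * (2 * p.n)) ≤ 2 * p.n := by
  rw [Real.sqrt_le_left (by positivity)]
  nlinarith [sq_nonneg (p.n : ℝ)]

/-- The error of the products, with a factor to spare. -/
theorem δG_leX (hp : NumOK p) {X : ℕ}
    (hX : X * (400 * p.n ^ 5 * p.r ^ 2 * 9 ^ p.r) ≤ p.Th1) :
    (X : ℝ) * (25 * (p.n : ℝ) ^ 4 * NumOK.δG p) ≤ 1 := by
  have hT : (0 : ℝ) < p.Th := by exact_mod_cast hp.Thpos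
  have h1 := hp.pJF
  have h2 := hp.pJF2
  have h3 : (X : ℝ) * (400 * (p.n : ℝ) ^ 5 * (p.r : ℝ) ^ 2 * 9 ^ p.r) ≤ p.Th := by
    exact_mod_cast hX.trans hp.Th1_le
  have h4 : NumOK.δG p ≤ 4 * (p.r : ℝ) ^ 2 * 4 ^ p.r * (p.n * (2 ^ (p.r + 2) / p.Th)) := by
    unfold NumOK.δG
    apply mul_le_mul_of_nonneg_right _ (by positivity)
    exact mul_le_mul h1 h2 (by positivity) (by positivity)
  have h8 : (4 : ℝ) ^ p.r * 2 ^ p.r ≤ 9 ^ p.r := by
    rw [← mul_pow]
    exact pow_le_pow_left₀ (by norm_num) (by norm_num) _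
  calc (X : ℝ) * (25 * (p.n : ℝ) ^ 4 * NumOK.δG p)
      ≤ (X : ℝ) * (25 * (p.n : ℝ) ^ 4 *
          (4 * (p.r : ℝ) ^ 2 * 4 ^ p.r * (p.n * (2 ^ (p.r + 2) / p.Th)))) :=
        mul_le_mul_of_nonneg_left (mul_le_mul_of_nonneg_left h4 (by positivity)) (by positivity)
    _ = (X : ℝ) * (400 * (p.n : ℝ) ^ 5 * (p.r : ℝ) ^ 2 * (4 ^ p.r * 2 ^ p.r)) / p.Th := by
        rw [pow_add]; ring
    _ ≤ (X : ℝ) * (400 * (p.n : ℝ) ^ 5 * (p.r : ℝ) ^ 2 * 9 ^ p.r) / p.Th := by
        apply div_le_div_of_nonneg_right _ hT.le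
        apply mul_le_mul_of_nonneg_left _ (by positivity)
        exact mul_le_mul_of_nonneg_left h8 (by positivity)
    _ ≤ 1 := by rw [div_le_one hT]; exact h3

/-- The first preconditioner. -/
theorem G0_good (hp : NumOK p) (hS : SemOK p S) {d : SD} (hd : Val p d) {o o' o'' : ℕ}
    (ho : o ≤ p.D) (ho'' : o'' ≤ p.D) {X : ℕ} (hX1 : 1 ≤ X) (hXq : 8 * X ≤ p.q)
    (hX : X * (400 * p.n ^ 5 * p.r ^ 2 * 9 ^ p.r) ≤ p.Th1) :
    IsBd (hw p d) (1 - fz p (Gz p S d o o' o'' 0) * Lr p d (Zs p S d o o')) (1 / X) := by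
  have hh0 : ∀ w, 0 ≤ hw p d w := fun w => (hw_pos hp d w).le
  have h1 := hS.pre d (Z1 p S d o) (Zs p S d o o') hd (big_Z1 hp hS hd ho)
    (fun x hx => Or.inl (Or.inl hx)) (fun x hx => loss_le hp hx)
  have h2 := G0_close hp hS hd (o := o) (o' := o') ho''
  set Gh := gprod (fun a => 1 + kap p ^ 2 ^ a • Pm p S d (Zs p S d o o') a) p.r with hGh
  have e0 : fz p (Gz p S d o o' o'' 0) = fm p (prodM p (fac2 p S d o o' o'') p.JF 0) := by
    ext v x
    unfold fz fm Gz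
    simp
  rw [e0]
  set G0 := fm p (prodM p (fac2 p S d o o' o'') p.JF 0) with hG0
  have h3 : ∀ v x, |((G0 - Gh) * Lr p d (Zs p S d o o')) v x| ≤ 2 * NumOK.δG p := by
    intro v x
    have h4 := (h2.mul (Lr_row hp hd (Zs p S d o o')) (by norm_num)).entry v x
    linarith
  have h4 := IsBd.of_entry (hw_ge_one hp d) (sum_hw hd) h3
  rw [Fintype.card_fin] at h4
  have e1 : 1 - G0 * Lr p d (Zs p S d o o') = (1 - Gh * Lr p d (Zs p S d o o')) -
      (G0 - Gh) * Lr p d (Zs p S d o o') := by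
    rw [sub_mul]; abel
  have hXr : (1 : ℝ) ≤ X := by exact_mod_cast hX1
  have hq : (8 : ℝ) * X ≤ p.q := by exact_mod_cast hXq
  have hδ0 := NumOK.δG_nonneg p
  have h5 := h1.sub hh0 (by positivity) (by positivity) h4
  rw [← e1] at h5
  refine h5.mono hh0 (by positivity) ?_
  have h6 : 2 / (p.q : ℝ) ≤ (1 / 4) * (1 / X) := by
    rw [mul_one_div, div_div, div_le_div_iff₀ (by linarith) (by linarith)]
    linarith
  have hn : (2 : ℝ) ≤ p.n := by exact_mod_cast hp.n2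
  have h7 : 2 * NumOK.δG p * Real.sqrt (p.n * (2 * p.n)) ≤ 2 * NumOK.δG p * (2 * p.n) :=
    mul_le_mul_of_nonneg_left (sqrt_le_2n' hp) (by positivity)
  have h8 : 2 * NumOK.δG p * (2 * p.n) ≤ (1 / 50) * (1 / X) := by
    have h9 := δG_leX hp hX
    have h10 : 8 * (p.n : ℝ) ≤ (p.n : ℝ) ^ 4 := by
      have : (8 : ℝ) ≤ (p.n : ℝ) ^ 3 := by
        calc (8 : ℝ) = 2 ^ 3 := by norm_num
          _ ≤ _ := pow_le_pow_left₀ (by norm_num) hn 3
      calc 8 * (p.n : ℝ) ≤ (p.n : ℝ) ^ 3 * p.n := mul_le_mul_of_nonneg_right this (by linarith)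
        _ = _ := by ring
    have h11 := mul_le_mul_of_nonneg_right h10 hδ0
    rw [mul_one_div, le_div_iff₀ (by linarith)]
    have h12 : 25 * (8 * (p.n : ℝ) * NumOK.δG p) * X ≤ 25 * ((p.n : ℝ) ^ 4 * NumOK.δG p) * X :=
      mul_le_mul_of_nonneg_right (mul_le_mul_of_nonneg_left h11 (by norm_num)) (by linarith)
    nlinarith
  have h9 : (0 : ℝ) ≤ 1 / X := by positivity
  linarith

/-- All preconditioners. -/
theorem Gz_good (hp : NumOK p) (hS : SemOK p S) {d : SD} (hd : Val p d) {o o' o'' : ℕ}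
    (ho : o ≤ p.D) (ho'' : o'' ≤ p.D) : ∃ (X : ℕ) (θ : ℝ), 8 ≤ X ∧
      4 * p.n * p.q ^ p.b ≤ X ^ 2 ^ p.JN ∧ 0 ≤ θ ∧
      θ * (900 * p.n * (p.q : ℝ) ^ p.b) ≤ 2 ∧ ∀ j, IsBd (hw p d)
        (1 - fz p (Gz p S d o o' o'' j) * Lr p d (Zs p S d o o')) ((1 / X) ^ 2 ^ j + 2 * θ) := by
  obtain ⟨X, hX8, hXq, hXT, hXJ⟩ := hp.JN
  have hX8r : (8 : ℝ) ≤ X := by exact_mod_cast hX8
  have hT : (0 : ℝ) < p.Th := by exact_mod_cast hp.Thpos
  have hn : (2 : ℝ) ≤ p.n := by exact_mod_cast hp.n2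
  have hqb : (0 : ℝ) < (p.q : ℝ) ^ p.b := by
    have := hp.q64
    have : (0 : ℝ) < p.q := by exact_mod_cast (show 0 < p.q by omega)
    positivity
  set b : ℝ := (1 / 2) ^ p.rk with hb
  have hb0 : 0 < b := by positivity
  set g : ℝ := (1 + Real.sqrt (2 * p.n)) * (1 / b) with hg
  set θ : ℝ := Fintype.card (Fin p.n) * ((Fintype.card (Fin p.n) * g + 1) * (1 / p.Th)) *
    Real.sqrt (Fintype.card (Fin p.n) * (2 * p.n)) with hθ
  have e1b : 1 / b = 2 ^ p.rk := by rw [hb]; simp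
  have hg0 : 0 ≤ g := by positivity
  have hθ0 : 0 ≤ θ := by positivity
  have hrk : (1 : ℝ) ≤ 2 ^ p.rk := one_le_pow₀ (by norm_num)
  have hg1 : g ≤ 3 * p.n * 2 ^ p.rk := by
    rw [hg, e1b]
    apply mul_le_mul_of_nonneg_right _ (by positivity)
    have := sqrt_le_2n hp
    linarith
  have hθ1 : θ ≤ 8 * (p.n : ℝ) ^ 4 * 2 ^ p.rk / p.Th := by
    rw [hθ, Fintype.card_fin]
    have h1 : (p.n : ℝ) * g + 1 ≤ 4 * (p.n : ℝ) ^ 2 * 2 ^ p.rk := by
      have h2 := mul_le_mul_of_nonneg_left hg1 (show (0 : ℝ) ≤ p.n by linarith)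
      have h3 : (1 : ℝ) ≤ (p.n : ℝ) ^ 2 * 2 ^ p.rk := by
        have : (1 : ℝ) ≤ (p.n : ℝ) ^ 2 := one_le_pow₀ (by linarith)
        nlinarith
      nlinarith
    calc (p.n : ℝ) * ((p.n * g + 1) * (1 / p.Th)) * Real.sqrt (p.n * (2 * p.n))
        ≤ (p.n : ℝ) * (4 * (p.n : ℝ) ^ 2 * 2 ^ p.rk * (1 / p.Th)) * (2 * p.n) := by
          apply mul_le_mul _ (sqrt_le_2n' hp) (Real.sqrt_nonneg _) (by positivity)
          apply mul_le_mul_of_nonneg_left _ (by linarith)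
          exact mul_le_mul_of_nonneg_right h1 (by positivity)
      _ = _ := by ring
  have hTh : (2 : ℝ) ^ p.rk * (p.q : ℝ) ^ p.b * (3600 * (p.n : ℝ) ^ 5) ≤ p.Th := by
    rw [Th_eq p]
    apply mul_le_mul_of_nonneg_left _ (by positivity)
    have h1 : ((400 * p.n ^ 5 * p.r ^ 2 * 9 ^ p.r : ℕ) : ℝ) ≤ (p.Th1 : ℝ) := by
      exact_mod_cast hp.Th1
    refine le_trans ?_ h1
    push_cast
    have h2 : (1 : ℝ) ≤ (p.r : ℝ) ^ 2 := one_le_pow₀ (by exact_mod_cast hp.r1)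
    have h3 : (9 : ℝ) ≤ 9 ^ p.r := by
      calc (9 : ℝ) = 9 ^ 1 := by norm_num
        _ ≤ 9 ^ p.r := pow_le_pow_right₀ (by norm_num) hp.r1
    have h4 : (9 : ℝ) ≤ (p.r : ℝ) ^ 2 * 9 ^ p.r := by nlinarith
    calc 3600 * (p.n : ℝ) ^ 5 = 400 * (p.n : ℝ) ^ 5 * 9 := by ring
      _ ≤ 400 * (p.n : ℝ) ^ 5 * ((p.r : ℝ) ^ 2 * 9 ^ p.r) :=
          mul_le_mul_of_nonneg_left h4 (by positivity)
      _ = _ := by ring
  have hθ2 : θ * (900 * p.n * (p.q : ℝ) ^ p.b) ≤ 2 := by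
    calc θ * (900 * p.n * (p.q : ℝ) ^ p.b)
        ≤ 8 * (p.n : ℝ) ^ 4 * 2 ^ p.rk / p.Th * (900 * p.n * (p.q : ℝ) ^ p.b) :=
          mul_le_mul_of_nonneg_right hθ1 (by positivity)
      _ = 2 * ((2 : ℝ) ^ p.rk * (p.q : ℝ) ^ p.b * (3600 * (p.n : ℝ) ^ 5)) / p.Th := by ring
      _ ≤ 2 * p.Th / p.Th := by
          apply div_le_div_of_nonneg_right _ hT.le
          linarith
      _ = 2 := by field_simp
  have hqb1 : (1 : ℝ) ≤ (p.q : ℝ) ^ p.b := by
    have := hp.q64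
    exact one_le_pow₀ (by exact_mod_cast (show 1 ≤ p.q by omega))
  have hθ3 : θ ≤ 1 / 8 := by
    have h1 : (900 : ℝ) * 2 * 1 ≤ 900 * p.n * (p.q : ℝ) ^ p.b :=
      mul_le_mul (by linarith) hqb1 (by norm_num) (by positivity)
    have h2 := mul_le_mul_of_nonneg_left h1 hθ0
    linarith
  refine ⟨X, θ, hX8, hXJ, hθ0, hθ2, fun j => ?_⟩
  have hstep : ∀ i < j, ∃ R1 R2 : Matrix (Fin p.n) (Fin p.n) ℝ,
      (∀ v x, |R1 v x| ≤ 1 / (p.Th : ℝ)) ∧ (∀ v x, |R2 v x| ≤ 1 / (p.Th : ℝ)) ∧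
      fz p (Gz p S d o o' o'' (i + 1)) = (2 - (fz p (Gz p S d o o' o'' i) *
        (1 - Nm p d * diagonal (fun x => 1 - bet p (Zs p S d o o') x)) + R1)) *
        fz p (Gz p S d o o' o'' i) + R2 := by
    intro i _
    obtain ⟨R1, R2, h1, h2, _, h4⟩ := newton_step hp (Lm p S d o o') (Gz p S d o o' o'' i)
    refine ⟨R1, R2, h1, h2, ?_⟩
    rw [Lm_eq hp] at h4
    exact h4
  exact newton (N := Nm p d) (β := bet p (Zs p S d o o')) (h := hw p d) (H := 2 * p.n)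
    (G := fun i => fz p (Gz p S d o o' o'' i)) (J := j) (x := 1 / (X : ℝ)) (η := 1 / (p.Th : ℝ))
    (g := g) (Sto_Nm hp hd) hb0 (fun x => beta_ge _ x) (fun x => beta_le _ x)
    (hw_ge_one hp d) (sum_hw hd) (by positivity)
    (one_div_le_one_div_of_le (by norm_num) hX8r) (by positivity) le_rfl hθ3
    (G0_good hp hS hd ho ho'' (by omega) hXq hXT) hstep j le_rfl

end Vale.Agent.P313.H974
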