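import Vale.Agent.P313.H974.Pert

/-!
One stage: the exceptional sets are small, and the rounded preconditioner is good.
-/

namespace Vale.Agent.P313.H974

open Finset Matrix Vale.Agent.P313.BP

variable {p : Par} {S : Sem}

namespace NumOK

theorem n1 (hp : NumOK p) : 1 ≤ p.n := le_trans (by norm_num) hp.n2

theorem Thpos (hp : NumOK p) : 0 < p.Th := by
  have h1 := hp.Thq
  have h2 := hp.q64
  have : 0 < p.q ^ 7 := by positivity
  omega

theorem Th1pos (hp : NumOK p) : 0 < p.Th1 := by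
  have h1 := hp.Th1
  have h2 := hp.n2
  have h3 := hp.r1
  have : 0 < 400 * p.n ^ 5 * p.r ^ 2 * 9 ^ p.r := by positivity
  omega

theorem Th1_le (hp : NumOK p) : p.Th1 ≤ p.Th := by
  unfold Par.Th
  have h2 := hp.q64
  exact Nat.le_mul_of_pos_left _ (by positivity)

/-- The precision of the factors and their products. -/
theorem prec (hp : NumOK p) : 400 * (p.n : ℝ) ^ 5 * (p.r : ℝ) ^ 2 * 9 ^ p.r ≤ p.Th := by
  exact_mod_cast hp.Th1.trans hp.Th1_le

theorem pJF (hp : NumOK p) : (4 : ℝ) ^ p.JF ≤ 4 * (p.r : ℝ) ^ 2 := by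
  have h : ((2 ^ p.JF : ℕ) : ℝ) ≤ ((2 * p.r : ℕ) : ℝ) := by exact_mod_cast hp.JF2
  push_cast at h
  have e : (4 : ℝ) ^ p.JF = (2 ^ p.JF) ^ 2 := by
    rw [← pow_mul, mul_comm, pow_mul]; norm_num
  rw [e]
  calc ((2 : ℝ) ^ p.JF) ^ 2 ≤ (2 * p.r) ^ 2 := pow_le_pow_left₀ (by positivity) h 2
    _ = _ := by ring

theorem pJF2 (hp : NumOK p) : (2 : ℝ) ^ 2 ^ p.JF ≤ 4 ^ p.r := by
  calc (2 : ℝ) ^ 2 ^ p.JF ≤ 2 ^ (2 * p.r) := pow_le_pow_right₀ (by norm_num) hp.JF2
    _ = 4 ^ p.r := by rw [pow_mul]; norm_num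

/-- The error of the products. -/
noncomputable def δG (p : Par) : ℝ := 4 ^ p.JF * 2 ^ 2 ^ p.JF * (p.n * (2 ^ (p.r + 2) / p.Th))

theorem δG_nonneg (p : Par) : 0 ≤ δG p := by unfold δG; positivity

theorem δG_le (hp : NumOK p) : 25 * (p.n : ℝ) ^ 4 * δG p ≤ 1 := by
  have hT : (0 : ℝ) < p.Th := by exact_mod_cast hp.Thpos
  have h1 := hp.pJF
  have h2 := hp.pJF2
  have h3 := hp.prec
  have h4 : δG p ≤ 4 * (p.r : ℝ) ^ 2 * 4 ^ p.r * (p.n * (2 ^ (p.r + 2) / p.Th)) := by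
    unfold δG
    apply mul_le_mul_of_nonneg_right _ (by positivity)
    exact mul_le_mul h1 h2 (by positivity) (by positivity)
  have h8 : (4 : ℝ) ^ p.r * 2 ^ p.r ≤ 9 ^ p.r := by
    rw [← mul_pow]
    exact pow_le_pow_left₀ (by norm_num) (by norm_num) _
  calc 25 * (p.n : ℝ) ^ 4 * δG p
      ≤ 25 * (p.n : ℝ) ^ 4 * (4 * (p.r : ℝ) ^ 2 * 4 ^ p.r * (p.n * (2 ^ (p.r + 2) / p.Th))) :=
        mul_le_mul_of_nonneg_left h4 (by positivity)
    _ = 400 * (p.n : ℝ) ^ 5 * (p.r : ℝ) ^ 2 * (4 ^ p.r * 2 ^ p.r) / p.Th := by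
        rw [pow_add]; ring
    _ ≤ 400 * (p.n : ℝ) ^ 5 * (p.r : ℝ) ^ 2 * 9 ^ p.r / p.Th := by
        apply div_le_div_of_nonneg_right _ hT.le
        exact mul_le_mul_of_nonneg_left h8 (by positivity)
    _ ≤ 1 := by rw [div_le_one hT]; exact h3

theorem hsmall (hp : NumOK p) : (4 : ℝ) ^ p.JF * (p.n * (2 ^ (p.r + 2) / p.Th)) ≤ 1 := by
  have h1 := hp.δG_le
  have h2 : (1 : ℝ) ≤ 2 ^ 2 ^ p.JF := one_le_pow₀ (by norm_num)
  have hn : (1 : ℝ) ≤ p.n := by exact_mod_cast hp.n1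
  have h3 : (4 : ℝ) ^ p.JF * (p.n * (2 ^ (p.r + 2) / p.Th)) ≤ δG p := by
    unfold δG
    have h4 : (0 : ℝ) ≤ 4 ^ p.JF * (p.n * (2 ^ (p.r + 2) / p.Th)) := by positivity
    calc (4 : ℝ) ^ p.JF * (p.n * (2 ^ (p.r + 2) / p.Th))
        = 1 * (4 ^ p.JF * (p.n * (2 ^ (p.r + 2) / p.Th))) := by ring
      _ ≤ 2 ^ 2 ^ p.JF * (4 ^ p.JF * (p.n * (2 ^ (p.r + 2) / p.Th))) :=
          mul_le_mul_of_nonneg_right h2 h4
      _ = _ := by ring
  have h4 : δG p ≤ 25 * (p.n : ℝ) ^ 4 * δG p := by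
    have h5 : (1 : ℝ) ≤ (p.n : ℝ) ^ 4 := one_le_pow₀ hn
    have h6 := δG_nonneg p
    nlinarith
  linarith

end NumOK

/-! ### The factors -/

open Classical in
/-- The exact factors. -/
noncomputable def Fex (p : Par) (S : Sem) (d : SD) (Z : ℕ → Prop) (κ : ℝ) (i : ℕ) :
    Matrix (Fin p.n) (Fin p.n) ℝ :=
  if i < p.r then 1 + κ ^ 2 ^ i • Pm p S d Z i else 1

theorem Fex_row (hS : SemOK p S) {d : SD} (hd : Val p d) (Z : ℕ → Prop) {κ : ℝ} (h0 : 0 ≤ κ)
    (h1 : κ ≤ 1) (i : ℕ) : RowLe (Fex p S d Z κ i) 2 := by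
  unfold Fex
  split_ifs with h
  · have h2 : RowLe (κ ^ 2 ^ i • Pm p S d Z i) 1 := by
      intro v
      have hk1 : κ ^ 2 ^ i ≤ 1 := pow_le_one₀ h0 h1
      have hk0 : 0 ≤ κ ^ 2 ^ i := pow_nonneg h0 _
      calc ∑ x, |(κ ^ 2 ^ i • Pm p S d Z i) v x| ≤ ∑ x : Fin p.n, S.P d Z i v x := by
            apply sum_le_sum
            intro x _
            rw [Matrix.smul_apply, smul_eq_mul]
            have h3 := hS.nn d Z i v x
            unfold Pm
            rw [abs_of_nonneg (mul_nonneg hk0 h3)]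
            exact mul_le_of_le_one_left h3 hk1
        _ ≤ 1 := hS.row d Z hd i h v
    have h3 := (RowLe.one (V := Fin p.n)).add h2
    norm_num at h3
    exact h3
  · exact (RowLe.one (V := Fin p.n)).mono (by norm_num)

theorem gprod_Fex (hp : NumOK p) (d : SD) (Z : ℕ → Prop) (κ : ℝ) :
    gprod (Fex p S d Z κ) (2 ^ p.JF) = gprod (fun a => 1 + κ ^ 2 ^ a • Pm p S d Z a) p.r := by
  rw [gprod_pad (Fex p S d Z κ) (r := p.r) (fun a ha => by
    unfold Fex; rw [if_neg (by omega)]) hp.JF1]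
  apply gprod_congr
  intro a ha
  unfold Fex
  rw [if_pos ha]

theorem two_div_le (hp : NumOK p) : 2 / (p.Th : ℝ) ≤ 2 ^ (p.r + 2) / p.Th := by
  have hT : (0 : ℝ) < p.Th := by exact_mod_cast hp.Thpos
  apply div_le_div_of_nonneg_right _ hT.le
  have h1 : (1 : ℝ) ≤ 2 ^ p.r := one_le_pow₀ (by norm_num)
  rw [pow_add]
  linarith

theorem fac0_close (hp : NumOK p) (hS : SemOK p S) (d : SD) {o : ℕ} (ho : o ≤ p.D) (i : ℕ)
    (v x : Fin p.n) : Fex p S d (fun _ => False) 1 i v x ≤ fm p (fac0 p S d o i) v x ∧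
      fm p (fac0 p S d o i) v x ≤ Fex p S d (fun _ => False) 1 i v x + 2 / p.Th := by
  have hT : (0 : ℝ) < p.Th := by exact_mod_cast hp.Thpos
  have h1 : (if v = x then (p.Th : ℝ) else 0) / p.Th = (1 : Matrix (Fin p.n) (Fin p.n) ℝ) v x := by
    rw [one_apply]
    split_ifs
    · exact div_self hT.ne'
    · simp
  have e : fm p (fac0 p S d o i) v x = (1 : Matrix (Fin p.n) (Fin p.n) ℝ) v x +
      (if i < p.r then (up p o (S.P d (fun _ => False) i v x) : ℝ) / p.Th else 0) := by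
    rw [← h1]
    unfold fm fac0 P0
    push_cast
    rw [add_div]
    congr 1
    · simp only [Fin.ext_iff]
    · split_ifs
      · rfl
      · simp
  rw [e]
  unfold Fex
  split_ifs with h
  · rw [Matrix.add_apply, one_pow, one_smul]
    have h2 := up_ge (p := p) (x := S.P d (fun _ => False) i v x) (by have := hp.D1; omega)
      hp.Thpos o
    have h3 := up_le (p := p) (by have := hp.D1; omega) hp.Thpos ho
      (hS.nn d (fun _ => False) i v x)
    unfold Pm
    constructor <;> linarith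
  · constructor
    · simp
    · have : (0 : ℝ) ≤ 2 / p.Th := by positivity
      simp only [add_zero]
      linarith

theorem fac2_close (hp : NumOK p) (hS : SemOK p S) {d : SD} (hd : Val p d) {o o' o'' : ℕ}
    (ho : o'' ≤ p.D) (i : ℕ) (v x : Fin p.n) :
    |fm p (fac2 p S d o o' o'' i) v x - Fex p S d (Zs p S d o o') (kap p) i v x| ≤
      2 ^ (p.r + 2) / p.Th := by
  have hT : (0 : ℝ) < p.Th := by exact_mod_cast hp.Thpos
  have hD : 0 < p.D := by have := hp.D1; omega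
  have h1 : (if v = x then (p.Th : ℝ) else 0) / p.Th = (1 : Matrix (Fin p.n) (Fin p.n) ℝ) v x := by
    rw [one_apply]
    split_ifs
    · exact div_self hT.ne'
    · simp
  have e : fm p (fac2 p S d o o' o'' i) v x = (1 : Matrix (Fin p.n) (Fin p.n) ℝ) v x +
      (if i < p.r then ((kp p i * P2 p S d o o' o'' i v x / p.Th : ℕ) : ℝ) / p.Th else 0) := by
    rw [← h1]
    unfold fm fac2
    push_cast
    rw [add_div]
    congr 1
    · simp only [Fin.ext_iff]
    · split_ifs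
      · rfl
      · simp
  rw [e]
  unfold Fex
  split_ifs with h
  · rw [Matrix.add_apply, Matrix.smul_apply, smul_eq_mul, add_sub_add_left_eq_sub]
    set P := S.P d (Zs p S d o o') i v x with hP
    have hP0 : 0 ≤ P := hS.nn _ _ _ _ _
    have hP1 : P ≤ 1 := by
      refine le_trans ?_ (hS.row d (Zs p S d o o') hd i h v)
      exact single_le_sum (f := fun x : Fin p.n => S.P d (Zs p S d o o') i v x)
        (fun x _ => hS.nn _ _ _ _ _) (mem_univ x)
    have hz1 : P ≤ (P2 p S d o o' o'' i v x : ℝ) / p.Th := up_ge hD hp.Thpos o''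
    have hz2 : (P2 p S d o o' o'' i v x : ℝ) / p.Th ≤ P + 2 / p.Th :=
      up_le hD hp.Thpos ho hP0
    obtain ⟨hk1, hk2⟩ := kp_close (p := p) hp.Thpos i
    have hk3 : kap p ^ 2 ^ i ≤ 1 := pow_le_one₀ (kap_nonneg p) (kap_le_one p)
    have hk4 : 0 ≤ kap p ^ 2 ^ i := pow_nonneg (kap_nonneg p) _
    set m := kp p i * P2 p S d o o' o'' i v x with hm
    have hf1 := floor_lo (m := m) (t := p.Th)
    have hf2 := floor_hi (m := m) hp.Thpos
    have e3 : (m : ℝ) / p.Th / p.Th = ((kp p i : ℝ) / p.Th) *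
        ((P2 p S d o o' o'' i v x : ℝ) / p.Th) := by
      rw [hm]; push_cast; field_simp
    have hw1 : ((m / p.Th : ℕ) : ℝ) / p.Th ≤ (m : ℝ) / p.Th / p.Th :=
      div_le_div_of_nonneg_right hf1 hT.le
    have hw2 : (m : ℝ) / p.Th / p.Th ≤ ((m / p.Th : ℕ) : ℝ) / p.Th + 1 / p.Th := by
      rw [← add_div]
      exact div_le_div_of_nonneg_right hf2 hT.le
    rw [e3] at hw1 hw2
    unfold Pm
    rw [← hP]
    set y := (kp p i : ℝ) / p.Th with hy
    set z := (P2 p S d o o' o'' i v x : ℝ) / p.Th with hz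
    set k := kap p ^ 2 ^ i with hk
    set w := ((m / p.Th : ℕ) : ℝ) / p.Th with hw
    have hy0 : 0 ≤ y := by rw [hy]; positivity
    have hz0 : 0 ≤ z := hP0.trans hz1
    have hτ : (0 : ℝ) < 1 / p.Th := by positivity
    have e4 : (2 : ℝ) / p.Th = 2 * (1 / p.Th) := by ring
    have e5 : ((2 : ℝ) ^ i - 1) / p.Th = (2 ^ i - 1) * (1 / p.Th) := by ring
    have e6 : (2 : ℝ) ^ (p.r + 2) / p.Th = 4 * 2 ^ p.r * (1 / p.Th) := by rw [pow_add]; ring
    rw [e4] at hz2
    rw [e5] at hk2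
    rw [e6]
    set τ := 1 / (p.Th : ℝ) with hτdef
    have h2r : (2 : ℝ) ^ i ≤ 2 ^ p.r := pow_le_pow_right₀ (by norm_num) h.le
    have h2i : (1 : ℝ) ≤ 2 ^ i := one_le_pow₀ (by norm_num)
    -- upper bound
    have u1 : y * z ≤ k * P + 2 * τ := by
      calc y * z ≤ k * (P + 2 * τ) := mul_le_mul hk1 hz2 hz0 hk4
        _ = k * P + k * (2 * τ) := by ring
        _ ≤ k * P + 1 * (2 * τ) := by
            have := mul_le_mul_of_nonneg_right hk3 (show 0 ≤ 2 * τ by positivity)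
            linarith
        _ = _ := by ring
    -- lower bound
    have u2 : k * P - (2 ^ i - 1) * τ ≤ y * z := by
      have h5 : y * P ≤ y * z := mul_le_mul_of_nonneg_left hz1 hy0
      have h6 : (k - (2 ^ i - 1) * τ) * P ≤ y * P :=
        mul_le_mul_of_nonneg_right (by linarith) hP0
      have h7 : (2 ^ i - 1) * τ * P ≤ (2 ^ i - 1) * τ * 1 :=
        mul_le_mul_of_nonneg_left hP1 (mul_nonneg (by linarith) hτ.le)
      linarith
    have u3 : (2 : ℝ) ^ i * τ ≤ 2 ^ p.r * τ := mul_le_mul_of_nonneg_right h2r hτ.le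
    have u4 : 1 * τ ≤ 2 ^ i * τ := mul_le_mul_of_nonneg_right h2i hτ.le
    rw [abs_le]
    constructor <;> linarith
  · simp only [add_zero, sub_self, abs_zero]
    positivity

/-- The rounded product of the second kind. -/
theorem G0_close (hp : NumOK p) (hS : SemOK p S) {d : SD} (hd : Val p d) {o o' o'' : ℕ}
    (ho : o'' ≤ p.D) : RowLe (fm p (prodM p (fac2 p S d o o' o'') p.JF 0) -
      gprod (fun a => 1 + kap p ^ 2 ^ a • Pm p S d (Zs p S d o o') a) p.r) (NumOK.δG p) := by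
  rw [← gprod_Fex hp]
  refine prodM_close hp.Thpos (by norm_num) ?_
    (fun i => Fex_row hS hd _ (kap_nonneg p) (kap_le_one p) i)
    (fun i v x => fac2_close hp hS hd ho i v x) hp.hsmall
  refine le_trans ?_ (two_div_le hp)
  have hT : (0 : ℝ) < p.Th := by exact_mod_cast hp.Thpos
  exact div_le_div_of_nonneg_right (by norm_num) hT.le

/-- The rounded product of the first kind. -/
theorem F0_close (hp : NumOK p) (hS : SemOK p S) {d : SD} (hd : Val p d) {o : ℕ}
    (ho : o ≤ p.D) : RowLe (fm p (prodM p (fac0 p S d o) p.JF 0) -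
      gprod (fun a => 1 + Pm p S d (fun _ => False) a) p.r) (NumOK.δG p) := by
  have e := gprod_Fex (S := S) hp d (fun _ => False) 1
  simp only [one_pow, one_smul] at e
  rw [← e]
  have h2 := two_div_le hp
  have hT : (0 : ℝ) < p.Th := by exact_mod_cast hp.Thpos
  refine prodM_close hp.Thpos (by norm_num) ?_
    (fun i => Fex_row hS hd _ zero_le_one le_rfl i)
    (fun i v x => ?_) hp.hsmall
  · refine le_trans ?_ h2
    exact div_le_div_of_nonneg_right (by norm_num) hT.le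
  · obtain ⟨h3, h4⟩ := fac0_close hp hS d ho i v x
    rw [abs_le]
    have h5 : (0 : ℝ) ≤ 2 / p.Th := by positivity
    constructor <;> linarith

theorem Fex_nn (hS : SemOK p S) (d : SD) (Z : ℕ → Prop) {κ : ℝ} (h0 : 0 ≤ κ) (i : ℕ)
    (v x : Fin p.n) : 0 ≤ Fex p S d Z κ i v x := by
  have h1 : (0 : ℝ) ≤ (1 : Matrix (Fin p.n) (Fin p.n) ℝ) v x := by
    rw [one_apply]; split_ifs <;> norm_num
  unfold Fex
  split_ifs
  · rw [Matrix.add_apply, Matrix.smul_apply, smul_eq_mul]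
    exact add_nonneg h1 (mul_nonneg (pow_nonneg h0 _) (hS.nn _ _ _ _ _))
  · exact h1

theorem F0_ge (hp : NumOK p) (hS : SemOK p S) (d : SD) {o : ℕ} (ho : o ≤ p.D)
    (v x : Fin p.n) : 0 ≤ gprod (fun a => 1 + Pm p S d (fun _ => False) a) p.r v x ∧
      gprod (fun a => 1 + Pm p S d (fun _ => False) a) p.r v x ≤
      fm p (prodM p (fac0 p S d o) p.JF 0) v x := by
  have e := gprod_Fex (S := S) hp d (fun _ => False) 1
  simp only [one_pow, one_smul] at e
  rw [← e, ← ptree_zero]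
  exact prodM_ge hp.Thpos (fun i v x => Fex_nn hS d _ zero_le_one i v x)
    (fun i v x => (fac0_close hp hS d ho i v x).1) p.JF 0 v x

end Vale.Agent.P313.H974
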