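import Vale.Agent.P313.H974.Spec

/-!
The fixed point arithmetic of a stage: the rounded products against the exact ones.
-/

namespace Vale.Agent.P313.H974

open Finset Matrix Vale.Agent.P313.BP

/-- Numerical assumptions for one stage. -/
structure NumOK (p : Par) : Prop where
  n2 : 2 ≤ p.n
  r1 : 1 ≤ p.r
  JF1 : p.r ≤ 2 ^ p.JF
  JF2 : 2 ^ p.JF ≤ 2 * p.r
  q3 : 2 * (3 ^ p.r + 2) ≤ p.q
  q64 : 64 ≤ p.q
  Thq : 2 * p.q ^ 7 ≤ p.Th
  Th1 : 400 * p.n ^ 5 * p.r ^ 2 * 9 ^ p.r ≤ p.Th1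
  JN : ∃ X : ℕ, 8 ≤ X ∧ 8 * X ≤ p.q ∧ X * (400 * p.n ^ 5 * p.r ^ 2 * 9 ^ p.r) ≤ p.Th1 ∧
    4 * p.n * p.q ^ p.b ≤ X ^ (2 ^ p.JN)
  D1 : 1 ≤ p.D

variable {p : Par} {S : Sem}

theorem floor_lo {m t : ℕ} : ((m / t : ℕ) : ℝ) ≤ (m : ℝ) / t := Nat.cast_div_le

theorem floor_hi {m t : ℕ} (ht : 0 < t) : (m : ℝ) / t ≤ ((m / t : ℕ) : ℝ) + 1 := by
  rw [div_le_iff₀ (by exact_mod_cast ht)]
  have h : m ≤ (m / t + 1) * t := by
    have := Nat.div_add_mod m t
    have h2 := Nat.mod_lt m ht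
    rw [Nat.add_mul, one_mul, mul_comm]; omega
  exact_mod_cast h

/-- The matrix of a function with fixed point values. -/
noncomputable def fm (p : Par) (f : ℕ → ℕ → ℕ) : Matrix (Fin p.n) (Fin p.n) ℝ :=
  fun v x => (f v x : ℝ) / p.Th

/-- The product of the functions is the product of the matrices, up to the rounding. -/
theorem prodM_step (hT : 0 < p.Th) (fac : ℕ → ℕ → ℕ → ℕ) (j i : ℕ) (v x : Fin p.n) :
    (fm p (prodM p fac j (2 * i + 1)) * fm p (prodM p fac j (2 * i))) v x ≤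
      fm p (prodM p fac (j + 1) i) v x ∧
    fm p (prodM p fac (j + 1) i) v x ≤
      (fm p (prodM p fac j (2 * i + 1)) * fm p (prodM p fac j (2 * i))) v x + 1 / p.Th := by
  have hT' : (0 : ℝ) < p.Th := by exact_mod_cast hT
  set m := ∑ y ∈ range p.n, prodM p fac j (2 * i + 1) v y * prodM p fac j (2 * i) y x with hm
  have e1 : (fm p (prodM p fac j (2 * i + 1)) * fm p (prodM p fac j (2 * i))) v x =
      ((m : ℝ) / p.Th) / p.Th := by
    rw [mul_apply, hm, ← Fin.sum_univ_eq_sum_range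
      (fun y => prodM p fac j (2 * i + 1) v y * prodM p fac j (2 * i) y x)]
    push_cast
    rw [sum_div, sum_div]
    apply sum_congr rfl
    intro y _
    unfold fm
    field_simp
  have e2 : fm p (prodM p fac (j + 1) i) v x = (((m / p.Th : ℕ) : ℝ) + 1) / p.Th := by
    unfold fm
    rw [hm]
    simp only [prodM]
    push_cast
    rfl
  rw [e1, e2]
  have h1 := floor_lo (m := m) (t := p.Th)
  have h2 := floor_hi (m := m) hT
  constructor
  · exact div_le_div_of_nonneg_right h2 hT'.le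
  · rw [← add_div]
    exact div_le_div_of_nonneg_right (by linarith) hT'.le

/-- The products against the exact products. -/
theorem prodM_close (hT : 0 < p.Th) {fac : ℕ → ℕ → ℕ → ℕ}
    {F : ℕ → Matrix (Fin p.n) (Fin p.n) ℝ} {c η : ℝ} {J : ℕ} (hc : 1 ≤ c)
    (hη : 1 / p.Th ≤ η) (hF : ∀ i, RowLe (F i) c)
    (h0 : ∀ i, ∀ v x : Fin p.n, |fm p (fac i) v x - F i v x| ≤ η)
    (hsmall : 4 ^ J * (p.n * η) ≤ 1) :
    RowLe (fm p (prodM p fac J 0) - gprod F (2 ^ J)) (4 ^ J * c ^ 2 ^ J * (p.n * η)) := by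
  have hT' : (0 : ℝ) < p.Th := by exact_mod_cast hT
  have hη0 : 0 ≤ η := le_trans (by positivity) hη
  have h := ptree_err (T := fun j i => fm p (prodM p fac j i)) (J := J) hc hη0 hF
    (fun i v x => h0 i v x) (fun j _ i v x => by
      obtain ⟨h1, h2⟩ := prodM_step hT fac j i v x
      rw [abs_le]
      constructor <;> linarith) (by rwa [Fintype.card_fin]) J le_rfl 0
  rw [Fintype.card_fin, ptree_zero] at h
  exact h

/-- Rounded products from above. -/
theorem prodM_ge (hT : 0 < p.Th) {fac : ℕ → ℕ → ℕ → ℕ}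
    {F : ℕ → Matrix (Fin p.n) (Fin p.n) ℝ} (hF0 : ∀ i, ∀ v x : Fin p.n, 0 ≤ F i v x)
    (h0 : ∀ i, ∀ v x : Fin p.n, F i v x ≤ fm p (fac i) v x) : ∀ j i, ∀ v x : Fin p.n,
    0 ≤ ptree F j i v x ∧ ptree F j i v x ≤ fm p (prodM p fac j i) v x := by
  intro j
  induction j with
  | zero => intro i v x; exact ⟨hF0 i v x, h0 i v x⟩
  | succ j ih =>
    intro i v x
    have h1 := (prodM_step hT fac j i v x).1
    refine ⟨?_, le_trans ?_ h1⟩
    · simp only [ptree, mul_apply]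
      exact sum_nonneg (fun y _ => mul_nonneg (ih _ v y).1 (ih _ y x).1)
    · simp only [ptree, mul_apply]
      exact sum_le_sum (fun y _ => mul_le_mul (ih _ v y).2 (ih _ y x).2 (ih _ y x).1
        ((ih _ v y).1.trans (ih _ v y).2))

/-! ### The killing factors -/

theorem Th_eq (p : Par) : (p.Th : ℝ) = 2 ^ p.rk * (p.q : ℝ) ^ p.b * p.Th1 := by
  unfold Par.Th; push_cast; rfl

theorem kap_nonneg (p : Par) : 0 ≤ kap p := by
  unfold kap
  have : (1 / 2 : ℝ) ^ p.rk ≤ 1 := pow_le_one₀ (by norm_num) (by norm_num)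
  linarith

theorem kap_le_one (p : Par) : kap p ≤ 1 := by
  unfold kap
  have : (0 : ℝ) ≤ (1 / 2 : ℝ) ^ p.rk := by positivity
  linarith

theorem kp_close (hT : 0 < p.Th) : ∀ a, (kp p a : ℝ) / p.Th ≤ kap p ^ 2 ^ a ∧
    kap p ^ 2 ^ a ≤ (kp p a : ℝ) / p.Th + (2 ^ a - 1) / p.Th := by
  have hT' : (0 : ℝ) < p.Th := by exact_mod_cast hT
  intro a
  induction a with
  | zero =>
    have h1 : 2 ^ p.rk * (p.Th / 2 ^ p.rk) = p.Th := by
      apply Nat.mul_div_cancel'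
      unfold Par.Th
      rw [mul_assoc]
      exact Dvd.intro _ rfl
    have h2 : p.Th / 2 ^ p.rk ≤ p.Th := Nat.div_le_self _ _
    have e1 : (kp p 0 : ℝ) / p.Th = kap p := by
      unfold kp kap
      rw [Nat.cast_sub h2]
      have h3 : (2 : ℝ) ^ p.rk * ((p.Th / 2 ^ p.rk : ℕ) : ℝ) = p.Th := by exact_mod_cast h1
      have h4 : ((p.Th / 2 ^ p.rk : ℕ) : ℝ) = p.Th / 2 ^ p.rk := by
        rw [eq_div_iff (by positivity), mul_comm]; exact h3
      rw [h4, one_div, inv_pow]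
      field_simp
    rw [e1, pow_zero, pow_one]
    exact ⟨le_rfl, by simp⟩
  | succ a ih =>
    obtain ⟨h1, h2⟩ := ih
    set m := kp p a ^ 2 with hm
    have h3 := floor_lo (m := m) (t := p.Th)
    have h4 := floor_hi (m := m) hT
    have e1 : kp p (a + 1) = m / p.Th := rfl
    have e2 : kap p ^ 2 ^ (a + 1) = (kap p ^ 2 ^ a) ^ 2 := by
      rw [pow_succ 2 a, pow_mul]
    have hk0 : 0 ≤ kap p ^ 2 ^ a := pow_nonneg (kap_nonneg p) _
    have hk1 : kap p ^ 2 ^ a ≤ 1 := pow_le_one₀ (kap_nonneg p) (kap_le_one p)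
    have hy0 : 0 ≤ (kp p a : ℝ) / p.Th := by positivity
    have e3 : (m : ℝ) / p.Th / p.Th = ((kp p a : ℝ) / p.Th) ^ 2 := by
      rw [hm]; push_cast; field_simp
    rw [e1, e2]
    constructor
    · calc ((m / p.Th : ℕ) : ℝ) / p.Th ≤ (m : ℝ) / p.Th / p.Th :=
            div_le_div_of_nonneg_right h3 hT'.le
        _ = ((kp p a : ℝ) / p.Th) ^ 2 := e3
        _ ≤ (kap p ^ 2 ^ a) ^ 2 := pow_le_pow_left₀ hy0 h1 2
    · have h5 : ((kp p a : ℝ) / p.Th) ^ 2 ≤ ((m / p.Th : ℕ) : ℝ) / p.Th + 1 / p.Th := by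
        rw [← e3, ← add_div]
        exact div_le_div_of_nonneg_right h4 hT'.le
      have h6 : (kap p ^ 2 ^ a) ^ 2 ≤ ((kp p a : ℝ) / p.Th) ^ 2 +
          2 * ((2 ^ a - 1) / p.Th) := by
        set k := kap p ^ 2 ^ a
        set y := (kp p a : ℝ) / p.Th
        set e := ((2 : ℝ) ^ a - 1) / p.Th with he
        have h7 : k ^ 2 - y ^ 2 = (k - y) * (k + y) := by ring
        have h8 : 0 ≤ k - y := by linarith
        have h9 : k - y ≤ e := by linarith
        have h10 : k + y ≤ 2 := by linarith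
        have h11 : 0 ≤ k + y := by linarith
        nlinarith
      have h7 : ((2 : ℝ) ^ (a + 1) - 1) / p.Th = 2 * ((2 ^ a - 1) / p.Th) + 1 / p.Th := by
        rw [pow_succ]; ring
      rw [h7]
      linarith

/-! ### The factors -/

theorem up_ge (hD : 0 < p.D) (hT : 0 < p.Th) (o : ℕ) {x : ℝ} :
    x ≤ (up p o x : ℝ) / p.Th := by
  have hT' : (0 : ℝ) < p.Th := by exact_mod_cast hT
  rw [le_div_iff₀ hT', up]
  push_cast
  have h1 := Nat.lt_floor_add_one ((p.Th : ℝ) * x + (o : ℝ) / p.D)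
  have h2 : (0 : ℝ) ≤ (o : ℝ) / p.D := by positivity
  linarith

theorem up_le (hD : 0 < p.D) (hT : 0 < p.Th) {o : ℕ} (ho : o ≤ p.D) {x : ℝ} (hx : 0 ≤ x) :
    (up p o x : ℝ) / p.Th ≤ x + 2 / p.Th := by
  have hT' : (0 : ℝ) < p.Th := by exact_mod_cast hT
  have hD' : (0 : ℝ) < p.D := by exact_mod_cast hD
  have h1 := Nat.floor_le (show 0 ≤ (p.Th : ℝ) * x + (o : ℝ) / p.D by positivity)
  have h2 : (o : ℝ) / p.D ≤ 1 := by
    rw [div_le_one hD']; exact_mod_cast ho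
  have h3 : x + 2 / p.Th = (p.Th * x + 2) / p.Th := by field_simp
  rw [h3, up]
  apply div_le_div_of_nonneg_right _ hT'.le
  push_cast
  linarith

end Vale.Agent.P313.H974
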