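import Vale.Agent.P313.H974.NextS

/-!
The next stage datum, and all stages.
-/

namespace Vale.Agent.P313.H974

open Finset Matrix Vale.Agent.P313.BP

variable {p : Par} {S : Sem}

/-- The exact result of a stage. -/
noncomputable def Xs (p : Par) (S : Sem) (d : SD) (o o' : ℕ) : Matrix (Fin p.n) (Fin p.n) ℝ :=
  stopLaw (Nm p d) (bet p (Zs p S d o o'))

theorem qpos (hp : NumOK p) : (0 : ℝ) < p.q := by
  have := hp.q64
  exact_mod_cast (show 0 < p.q by omega)

/-- The last preconditioner gives the exact result up to `q ^ (-b)`. -/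
theorem Y_close (hp : NumOK p) (hS : SemOK p S) {d : SD} (hd : Val p d) {o o' o'' : ℕ}
    (ho : o ≤ p.D) (ho'' : o'' ≤ p.D) (v x : Fin p.n) :
    |(fz p (Gz p S d o o' o'' p.JN) * (Nm p d * diagonal (bet p (Zs p S d o o')))) v x -
      Xs p S d o o' v x| ≤ 1 / (p.q : ℝ) ^ p.b := by
  obtain ⟨X, θ, hX8, hXJ, hθ0, hθ, hG⟩ := Gz_good hp hS hd (o := o) (o' := o') (o'' := o'') ho ho''
  have hX0 : (0 : ℝ) < X := by
    have : (8 : ℝ) ≤ X := by exact_mod_cast hX8
    linarith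
  have hq := qpos hp
  have hn : (2 : ℝ) ≤ p.n := by exact_mod_cast hp.n2
  have hb0 : (0 : ℝ) < (1 / 2 : ℝ) ^ p.rk := by positivity
  have h1 := precond_entry (N := Nm p d) (β := bet p (Zs p S d o o')) (h := hw p d)
    (H := 2 * p.n) (Sto_Nm hp hd) hb0 (fun x => beta_ge _ x) (fun x => beta_le _ x)
    (hw_ge_one hp d) (sum_hw hd) (by positivity) (hG p.JN) v x
  refine h1.trans ?_
  have hsq := sqrt_le_2n hp
  have h2 : ((1 / (X : ℝ)) ^ 2 ^ p.JN + 2 * θ) * Real.sqrt (2 * p.n) ≤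
      ((1 / (X : ℝ)) ^ 2 ^ p.JN + 2 * θ) * (2 * p.n) :=
    mul_le_mul_of_nonneg_left hsq (by positivity)
  refine h2.trans ?_
  rw [le_div_iff₀ (by positivity)]
  have h3 : (1 / (X : ℝ)) ^ 2 ^ p.JN * (4 * p.n * (p.q : ℝ) ^ p.b) ≤ 1 := by
    have h4 : (4 * (p.n : ℝ) * (p.q : ℝ) ^ p.b) ≤ (X : ℝ) ^ 2 ^ p.JN := by exact_mod_cast hXJ
    rw [one_div, inv_pow, inv_mul_le_iff₀ (by positivity), mul_one]
    exact h4
  have h5 : ((1 / (X : ℝ)) ^ 2 ^ p.JN + 2 * θ) * (2 * p.n) * (p.q : ℝ) ^ p.b =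
      (1 / (X : ℝ)) ^ 2 ^ p.JN * (4 * p.n * (p.q : ℝ) ^ p.b) / 2 +
      θ * (900 * p.n * (p.q : ℝ) ^ p.b) / 225 := by ring
  rw [h5]
  linarith

/-- The integer `Phi`. -/
theorem Phi_close (hp : NumOK p) (hS : SemOK p S) {d : SD} (hd : Val p d) {o o' o'' : ℕ}
    (ho : o ≤ p.D) (ho'' : o'' ≤ p.D) (v x : Fin p.n) :
    (Phi p S d o o' o'' v x : ℝ) ≤ (p.q : ℝ) ^ p.b * Xs p S d o o' v x + 1 ∧
    (p.q : ℝ) ^ p.b * Xs p S d o o' v x - 2 ≤ (Phi p S d o o' o'' v x : ℝ) := by
  have hq := qpos hp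
  have hT : (0 : ℝ) < p.Th := by exact_mod_cast hp.Thpos
  have hTz : (0 : ℤ) < (p.Th : ℤ) * 2 ^ p.rk := by
    have : (0 : ℤ) < p.Th := by exact_mod_cast hp.Thpos
    positivity
  set Y := (fz p (Gz p S d o o' o'' p.JN) * (Nm p d * diagonal (bet p (Zs p S d o o')))) v x
    with hY
  have hYX := Y_close hp hS hd (o := o) (o' := o') ho ho'' v x
  rw [← hY] at hYX
  classical
  set m := ∑ y ∈ range p.n, Gz p S d o o' o'' p.JN v y * (d.A y x : ℤ) *
    (if Zs p S d o o' x then 2 ^ p.rk else 1) with hm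
  have e1 : Phi p S d o o' o'' v x = m / ((p.Th : ℤ) * 2 ^ p.rk) := by
    unfold Phi
    rw [hm]
  have e2 : (m : ℝ) / (((p.Th : ℤ) * 2 ^ p.rk : ℤ) : ℝ) = (p.q : ℝ) ^ p.b * Y := by
    rw [hY, mul_apply, hm,
      ← Fin.sum_univ_eq_sum_range (fun y => Gz p S d o o' o'' p.JN v y * (d.A y x : ℤ) *
        (if Zs p S d o o' x then 2 ^ p.rk else 1))]
    push_cast
    rw [sum_div, mul_sum]
    apply sum_congr rfl
    intro y _
    rw [mul_diagonal_apply']
    unfold fz Nm bet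
    have h2 : (2 : ℝ) ^ p.rk ≠ 0 := by positivity
    split_ifs
    · field_simp
    · rw [one_div, inv_pow]
      field_simp
  have h1 := int_floor_lo (m := m) hTz
  have h2 := int_floor_hi (m := m) hTz
  rw [e2] at h1 h2
  rw [e1]
  have h3 := abs_le.1 hYX
  have h4 : (p.q : ℝ) ^ p.b * (1 / (p.q : ℝ) ^ p.b) = 1 := by
    have : (p.q : ℝ) ^ p.b ≠ 0 := by positivity
    field_simp
  have h5 : (p.q : ℝ) ^ p.b * (Y - Xs p S d o o' v x) ≤ 1 := by
    rw [← h4]
    exact mul_le_mul_of_nonneg_left h3.2 (by positivity)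
  have h6 : -1 ≤ (p.q : ℝ) ^ p.b * (Y - Xs p S d o o' v x) := by
    have := mul_le_mul_of_nonneg_left h3.1 (show 0 ≤ (p.q : ℝ) ^ p.b by positivity)
    linarith
  constructor <;> linarith

theorem Sto_Xs (hp : NumOK p) {d : SD} (hd : Val p d) (o o' : ℕ) : Sto (Xs p S d o o') :=
  (Sto_Nm hp hd).stopLaw (a := (1 / 2) ^ p.rk) (by positivity) (fun x => beta_ge _ x)
    (fun x => beta_le _ x)

/-- The rounded entries. -/
theorem toNat_close (hp : NumOK p) (hS : SemOK p S) {d : SD} (hd : Val p d) {o o' o'' : ℕ}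
    (ho : o ≤ p.D) (ho'' : o'' ≤ p.D) (v x : Fin p.n) :
    ((Phi p S d o o' o'' v x - 1).toNat : ℝ) ≤ (p.q : ℝ) ^ p.b * Xs p S d o o' v x ∧
    (p.q : ℝ) ^ p.b * Xs p S d o o' v x - 3 ≤ ((Phi p S d o o' o'' v x - 1).toNat : ℝ) := by
  have hq := qpos hp
  obtain ⟨h1, h2⟩ := Phi_close hp hS hd (o := o) (o' := o') ho ho'' v x
  have h3 := (Sto_Xs (S := S) hp hd o o').nn v x
  have h4 : ((Phi p S d o o' o'' v x - 1).toNat : ℤ) = max (Phi p S d o o' o'' v x - 1) 0 :=
    Int.toNat_eq_max _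
  have h5 : ((Phi p S d o o' o'' v x - 1).toNat : ℝ) =
      max ((Phi p S d o o' o'' v x : ℝ) - 1) 0 := by
    have : (((Phi p S d o o' o'' v x - 1).toNat : ℤ) : ℝ) =
        ((max (Phi p S d o o' o'' v x - 1) 0 : ℤ) : ℝ) := by rw [h4]
    push_cast at this
    exact this
  rw [h5]
  constructor
  · apply max_le
    · linarith
    · positivity
  · exact le_trans (by linarith) (le_max_left _ _)

/-- The sink. -/
def snk (hp : NumOK p) : Fin p.n := ⟨p.n - 1, by have := hp.n2; omega⟩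

theorem next_A_sum (hp : NumOK p) (hS : SemOK p S) {d : SD} (hd : Val p d) {o o' o'' : ℕ}
    (ho : o ≤ p.D) (ho'' : o'' ≤ p.D) (v : Fin p.n) :
    ∑ y ∈ range (p.n - 1), (Phi p S d o o' o'' v y - 1).toNat ≤ p.q ^ p.b := by
  have hq := qpos hp
  have hX := Sto_Xs (S := S) hp hd o o'
  have h1 : (∑ y ∈ range (p.n - 1), ((Phi p S d o o' o'' v y - 1).toNat : ℝ)) ≤
      (p.q : ℝ) ^ p.b := by
    have h2 : ∀ y ∈ range p.n, (0 : ℝ) ≤ ((Phi p S d o o' o'' v y - 1).toNat : ℝ) :=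
      fun _ _ => Nat.cast_nonneg _
    calc (∑ y ∈ range (p.n - 1), ((Phi p S d o o' o'' v y - 1).toNat : ℝ))
        ≤ ∑ y ∈ range p.n, ((Phi p S d o o' o'' v y - 1).toNat : ℝ) := by
          apply sum_le_sum_of_subset_of_nonneg
          · intro y hy
            rw [mem_range] at hy ⊢
            omega
          · intro y hy _
            exact h2 y hy
      _ = ∑ y : Fin p.n, ((Phi p S d o o' o'' v y - 1).toNat : ℝ) := by
          rw [Fin.sum_univ_eq_sum_range (fun y => ((Phi p S d o o' o'' v y - 1).toNat : ℝ))]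
      _ ≤ ∑ y : Fin p.n, (p.q : ℝ) ^ p.b * Xs p S d o o' v y :=
          sum_le_sum (fun y _ => (toNat_close hp hS hd ho ho'' v y).1)
      _ = (p.q : ℝ) ^ p.b := by rw [← mul_sum, hX.row v, mul_one]
  exact_mod_cast h1

theorem next_row (hp : NumOK p) (hS : SemOK p S) {d : SD} (hd : Val p d) {o o' o'' : ℕ}
    (ho : o ≤ p.D) (ho'' : o'' ≤ p.D) : ∀ v < p.n,
    ∑ x ∈ range p.n, (next p S d o o' o'').A v x = p.q ^ p.b := by
  intro v hv
  have h1 := next_A_sum hp hS hd (o := o) (o' := o') ho ho'' ⟨v, hv⟩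
  have hn := hp.n2
  obtain ⟨m, hm⟩ : ∃ m, p.n = m + 1 := ⟨p.n - 1, by omega⟩
  have e1 : ∑ x ∈ range p.n, (next p S d o o' o'').A v x =
      ∑ x ∈ range (p.n - 1), (Phi p S d o o' o'' v x - 1).toNat +
        (p.q ^ p.b - ∑ y ∈ range (p.n - 1), (Phi p S d o o' o'' v y - 1).toNat) := by
    have e2 : range p.n = range ((p.n - 1) + 1) := by congr 1; omega
    rw [e2, sum_range_succ]
    congr 1
    · apply sum_congr rfl
      intro x hx
      rw [mem_range] at hx
      unfold next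
      simp only
      rw [if_neg (by omega)]
    · unfold next
      simp only
      rw [if_pos (by omega)]
  rw [e1]
  exact Nat.add_sub_of_le h1

/-- One stage. -/
theorem next_close (hp : NumOK p) (hS : SemOK p S) {d : SD} (hd : Val p d) {o o' o'' : ℕ}
    (ho : o ≤ p.D) (ho'' : o'' ≤ p.D) :
    RDg (Nm p (next p S d o o' o'')) (Xs p S d o o') (6 * p.n / (p.q : ℝ) ^ p.b) := by
  have hq := qpos hp
  have hqb : (0 : ℝ) < (p.q : ℝ) ^ p.b := by positivity
  have hX := Sto_Xs (S := S) hp hd o o'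
  have hcl := rndMat_close hX (snk hp) (D := p.q ^ p.b)
    (a := fun v x => (Phi p S d o o' o'' v x - 1).toNat) (δ := 3 / (p.q : ℝ) ^ p.b)
    (fun v x _ => by
      push_cast
      rw [div_le_iff₀ hqb, mul_comm]
      exact (toNat_close hp hS hd ho ho'' v x).1)
    (fun v x _ => by
      push_cast
      rw [← add_div, le_div_iff₀ hqb, mul_comm]
      linarith [(toNat_close hp hS hd (o' := o') ho ho'' v x).2])
    (by positivity)
  have e : Nm p (next p S d o o' o'') = rndMat (snk hp) (p.q ^ p.b)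
      (fun v x => (Phi p S d o o' o'' v x - 1).toNat) := by
    ext v x
    unfold Nm rndMat
    by_cases hx : x = snk hp
    · rw [if_pos hx]
      subst hx
      have e1 : (next p S d o o' o'').A v (snk hp) =
          p.q ^ p.b - ∑ y ∈ range (p.n - 1), (Phi p S d o o' o'' v y - 1).toNat := by
        unfold next snk
        simp only
        rw [if_pos (by have := hp.n2; omega)]
      rw [e1, Nat.cast_sub (next_A_sum hp hS hd ho ho'' v)]
      push_cast
      rw [sub_div, div_self hqb.ne']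
      congr 1
      rw [sum_div]
      have e2 : ∑ y ∈ range (p.n - 1), ((Phi p S d o o' o'' v y - 1).toNat : ℝ) /
          (p.q : ℝ) ^ p.b + ((Phi p S d o o' o'' v (snk hp) - 1).toNat : ℝ) /
          (p.q : ℝ) ^ p.b = ∑ y : Fin p.n, ((Phi p S d o o' o'' v y - 1).toNat : ℝ) /
          (p.q : ℝ) ^ p.b := by
        rw [Fin.sum_univ_eq_sum_range
          (fun y => ((Phi p S d o o' o'' v y - 1).toNat : ℝ) / (p.q : ℝ) ^ p.b)]
        have e3 : range p.n = range ((p.n - 1) + 1) := by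
          have := hp.n2
          congr 1; omega
        rw [e3, sum_range_succ]
        rfl
      rw [← add_sum_erase _ _ (mem_univ (snk hp))] at e2
      linarith
    · rw [if_neg hx]
      have e1 : (next p S d o o' o'').A v x = (Phi p S d o o' o'' v x - 1).toNat := by
        unfold next
        simp only
        rw [if_neg]
        intro h
        apply hx
        apply Fin.ext
        simp only [snk]
        omega
      rw [e1]
      push_cast
      rfl
  rw [e]
  refine hcl.2.mono (le_of_eq ?_)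
  rw [Fintype.card_fin]
  ring

end Vale.Agent.P313.H974
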